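import Vale.Agent.P038.H38.Pair

/-!
# P038 (H38): a normal form is strongly connected
-/

namespace Vale.Agent.P038.H38

open Finset Vale.Agent.P038.H139

universe u

variable {V : Type u} [Fintype V] [DecidableEq V] {lam : ℝ} {D : OGraph V} {w : V → ℝ}

/-- A counterexample without smaller counterexamples is strongly connected. -/
theorem strong_of_ind (IH : Ind lam V) (hw : ∀ v, 0 ≤ w v) (hF : ∀ v, 0 < Fw lam D w v)
    (S : Finset V) (hS : S.Nonempty) (hS' : ∃ z, z ∉ S) : (L1 D S).Nonempty := by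
  classical
  by_contra hcon
  rw [Finset.not_nonempty_iff_eq_empty] at hcon
  have hcl : ∀ a ∈ S, ∀ b, D.arc a b → b ∈ S := by
    intro a ha b hab
    by_contra hb
    have : b ∈ L1 D S := mem_L1.2 ⟨⟨a, ha, hab⟩, hb⟩
    rw [hcon] at this
    exact absurd this (Finset.notMem_empty b)
  obtain ⟨z0, hz0⟩ := hS'
  have : Nonempty {v // v ∈ S} := by
    obtain ⟨v, hv⟩ := hS
    exact ⟨⟨v, hv⟩⟩
  have hcard : Fintype.card {v // v ∈ S} < Fintype.card V :=
    Fintype.card_subtype_lt (x := z0) hz0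
  set D' : OGraph {v // v ∈ S} :=
    { arc := fun a b => D.arc a.1 b.1
      loopless := fun a => D.loopless a.1
      asymm := fun a b => D.asymm a.1 b.1 } with hD'
  obtain ⟨v, hv⟩ := IH {v // v ∈ S} hcard D' (fun v => w v.1) (fun v => hw v.1)
  have h1 : W (fun v : {v // v ∈ S} => w v.1) (N1 D' v) = W w (N1 D v.1) := by
    have e : N1 D v.1 = (N1 D' v).map (Function.Embedding.subtype _) := by
      ext z
      rw [mem_N1, Finset.mem_map]
      constructor
      · intro h
        exact ⟨⟨z, hcl _ v.2 _ h⟩, mem_N1.2 h, rfl⟩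
      · rintro ⟨z', hz', rfl⟩
        have h3 : D'.arc v z' := mem_N1.1 hz'
        exact h3
    rw [e]
    unfold W
    rw [Finset.sum_map]
    rfl
  have h2 : W (fun v : {v // v ∈ S} => w v.1) (N2 D' v) = W w (N2 D v.1) := by
    have e : N2 D v.1 = (N2 D' v).map (Function.Embedding.subtype _) := by
      ext z
      rw [mem_N2, Finset.mem_map]
      constructor
      · rintro ⟨h3, h4, y, h5, h6⟩
        have hy := hcl _ v.2 _ h5
        exact ⟨⟨z, hcl _ hy _ h6⟩, mem_N2.2 ⟨fun h => h3 (congrArg Subtype.val h), h4,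
          ⟨y, hy⟩, h5, h6⟩, rfl⟩
      · rintro ⟨z', hz', rfl⟩
        obtain ⟨h3, h4, y, h5, h6⟩ := mem_N2.1 hz'
        exact ⟨fun h => h3 (Subtype.ext h), h4, y.1, h5, h6⟩
    rw [e]
    unfold W
    rw [Finset.sum_map]
    rfl
  have h3 := hF v.1
  unfold Fw at h3 hv
  rw [← h1, ← h2] at h3
  linarith

theorem strong_of_NF (h : NF lam D w) (S : Finset V) (hS : S.Nonempty) (hS' : ∃ z, z ∉ S) :
    (L1 D S).Nonempty :=
  strong_of_ind h.ind h.nonneg h.posF S hS hS'

omit [DecidableEq V] in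
theorem exists_arc_of_NF [Nonempty V] (h : NF lam D w) : ∃ a b, D.arc a b := by
  by_contra hcon
  push Not at hcon
  obtain ⟨v⟩ := (inferInstance : Nonempty V)
  have h1 := h.one v
  have h2 : N1 D v = ∅ := by
    rw [Finset.eq_empty_iff_forall_notMem]
    intro z hz
    exact hcon v z (mem_N1.1 hz)
  unfold Fw at h1
  rw [h2] at h1
  have h3 := W_nonneg h.nonneg (N2 D v)
  have h4 : W w (∅ : Finset V) = 0 := by simp [W]
  rw [h4] at h1
  linarith

/-- In a normal form with 294's strict inequality, (OPT) fails. -/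
theorem NF.not_opt [Nonempty V] (h : NF 1 D w) (hG : GS D w) : ¬ OPT D w :=
  fun hO => opt_false h.pos hG (strong_of_NF h) (exists_arc_of_NF h) hO

/-- In a normal form with 294's strict inequality, the least two-cycle of `Phi` violates `Mono`. -/
theorem NF.not_mono [Nonempty V] (h : NF 1 D w) (hG : GS D w) :
    ∃ X : V → Finset V, (∀ z, z ∈ X z) ∧ Far D X ∧ (∀ z, Phi D (Phi D X) z = X z) ∧
      ¬ Mono D X ∧ ∃ z y, y ∈ L1 D (X z) ∧ z ∈ L1 D (Phi D X y) :=
  exists_not_mono h.pos hG (strong_of_NF h) (exists_arc_of_NF h)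

end Vale.Agent.P038.H38
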