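import Vale.Agent.P038.H38.Words

/-!
# The in-balance of the arcs on words, and domination along the other arcs
-/

namespace Vale.Agent.P038.H38

variable {V : Type*} [Fintype V] {D : OGraph V} {w : V → ℝ} {k : V → V → V → ℝ}

/-- equality of the two numbers of words -/
theorem Hyp.c_eq_q (h : Hyp D w k) {d y u v : V} (hw : Wd D d y u) (hk : k u d v ≠ 0) :
    c1 D w d y = q D w v y := by
  have hnn : ∀ d y u v, 0 ≤ w y * w u * (I D d y u * k u d v) * (c1 D w d y - q D w v y) := by
    intro d y u v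
    by_cases hz : I D d y u * k u d v = 0
    · rw [hz]; simp
    · refine mul_nonneg (mul_nonneg (mul_nonneg (h.pos y).le (h.pos u).le)
        (mul_nonneg (I_nonneg _ _ _) (h.nonneg _ _ _))) ?_
      have := h.q_le (wd_of_I (left_ne_zero_of_mul hz)) (right_ne_zero_of_mul hz)
      linarith
  have h0 := h.total_zero
  have h1 := (Finset.sum_eq_zero_iff_of_nonneg fun d _ => Finset.sum_nonneg fun y _ =>
    Finset.sum_nonneg fun u _ => Finset.sum_nonneg fun v _ => hnn d y u v).1 h0 d
    (Finset.mem_univ d)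
  have h2 := (Finset.sum_eq_zero_iff_of_nonneg fun y _ =>
    Finset.sum_nonneg fun u _ => Finset.sum_nonneg fun v _ => hnn d y u v).1 h1 y
    (Finset.mem_univ y)
  have h3 := (Finset.sum_eq_zero_iff_of_nonneg fun u _ =>
    Finset.sum_nonneg fun v _ => hnn d y u v).1 h2 u (Finset.mem_univ u)
  have h4 := (Finset.sum_eq_zero_iff_of_nonneg fun v _ => hnn d y u v).1 h3 v
    (Finset.mem_univ v)
  have h5 : w y * w u * (I D d y u * k u d v) ≠ 0 := by
    rw [I_of hw, one_mul]
    exact mul_ne_zero (mul_pos (h.pos y) (h.pos u)).ne' hk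
  have := (mul_eq_zero.1 h4).resolve_left h5
  linarith

open Classical in
/-- in-balance -/
theorem Hyp.inbal (h : Hyp D w k) (y : V) :
    ∑ v, (if Q D v y then w v else 0) = ∑ d, (if ∃ u, Wd D d y u then w d else 0) := by
  have e1 : ∀ v, (if Q D v y then w v else 0) =
      ∑ u, ∑ d, w u * (I D d y u * k u d v) / c1 D w d y := by
    intro v
    have e2 : ∀ u, ∑ d, w u * (I D d y u * k u d v) / c1 D w d y =
        w v / q D w v y * (I D y u v * w u) := by
      intro u
      have e3 : ∀ d, w u * (I D d y u * k u d v) / c1 D w d y =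
          w u / q D w v y * (I D d y u * k u d v) := by
        intro d
        by_cases hz : I D d y u * k u d v = 0
        · rw [hz]; simp
        · rw [h.c_eq_q (wd_of_I (left_ne_zero_of_mul hz)) (right_ne_zero_of_mul hz)]
          ring
      rw [Finset.sum_congr rfl fun d _ => e3 d, ← Finset.mul_sum]
      change w u / q D w v y * tr D k y u v = _
      rw [h.tr_eq]
      ring
    rw [Finset.sum_congr rfl fun u _ => e2 u, ← Finset.mul_sum]
    change _ = w v / q D w v y * q D w v y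
    split_ifs with hq
    · obtain ⟨u, h1, h2⟩ := h.back v y hq
      have hpos := h.q_pos (⟨h1, h2, hq⟩ : Wd D y u v)
      rw [div_mul_cancel₀ _ hpos.ne']
    · have hq0 : q D w v y = 0 := by
        refine Finset.sum_eq_zero fun x _ => ?_
        rw [I_of_not fun hw => hq hw.2.2, zero_mul]
      rw [hq0, mul_zero]
  rw [Finset.sum_congr rfl fun v _ => e1 v]
  rw [swap3 fun v u d => w u * (I D d y u * k u d v) / c1 D w d y]
  refine Finset.sum_congr rfl fun d _ => ?_
  have e4 : ∀ u, ∑ v, w u * (I D d y u * k u d v) / c1 D w d y =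
      w d / c1 D w d y * (I D d y u * w u) := by
    intro u
    by_cases hw : Wd D d y u
    · have e5 : ∑ v, w u * (I D d y u * k u d v) / c1 D w d y =
          w u * I D d y u / c1 D w d y * ∑ v, k u d v := by
        rw [Finset.mul_sum]
        exact Finset.sum_congr rfl fun v _ => by ring
      rw [e5, h.row u d hw.2.2]
      ring
    · rw [I_of_not hw]
      simp
  rw [Finset.sum_congr rfl fun u _ => e4 u, ← Finset.mul_sum]
  change w d / c1 D w d y * c1 D w d y = _
  split_ifs with hw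
  · obtain ⟨u, hu⟩ := hw
    rw [div_mul_cancel₀ _ (h.c1_pos hu).ne']
  · have hc0 : c1 D w d y = 0 := by
      refine Finset.sum_eq_zero fun x _ => ?_
      rw [I_of_not fun hw' => hw ⟨x, hw'⟩, zero_mul]
    rw [hc0, mul_zero]

omit [Fintype V] in
theorem Q_symm_of {k : V → V → V → ℝ} [Fintype V] (h : Hyp D w k) {u z : V} (hq : Q D u z) :
    Q D z u := by
  obtain ⟨y, h1, h2⟩ := h.back u z hq
  exact ⟨hq.1.symm, hq.2.2.1, hq.2.1, y, h1.1, h2.1⟩

/-- the arcs of `R` which are on no word -/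
def A (D : OGraph V) (u x : V) : Prop := R D u x ∧ ∀ y, ¬ Wd D u x y

/-- an arc of `A` does not end a word -/
theorem Hyp.A_end (h : Hyp D w k) {u x y : V} (hA : A D u x) : ¬ Wd D y u x := by
  intro hw
  have h1 : c1 D w u x = 0 := by
    refine Finset.sum_eq_zero fun z _ => ?_
    rw [I_of_not (hA.2 z), zero_mul]
  have h2 : 0 < c2 D w u x := by
    refine Finset.sum_pos' (fun x _ => mul_nonneg (I_nonneg _ _ _) (h.pos x).le)
      ⟨y, Finset.mem_univ y, ?_⟩
    rw [I_of hw, one_mul]
    exact h.pos y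
  rw [← h.c_eq, h1] at h2
  exact lt_irrefl _ h2

theorem Hyp.dom_out (h : Hyp D w k) {u x z : V} (hA : A D u x) (hz : D.arc x z) : D.arc u z := by
  by_contra hn
  have hzu : ¬ D.arc z u := fun hzu => hA.1.2 z ⟨hz, hzu⟩
  have hne : z ≠ u := by
    rintro rfl
    exact D.asymm _ _ hz hA.1.1
  have hq : Q D u z := ⟨hne, hn, hzu, x, hA.1.1, hz⟩
  obtain ⟨y, h1, h2⟩ := h.back u z hq
  refine h.A_end hA (y := y) ⟨h2, hA.1, ?_, ?_, ?_, z, hz, h1.1⟩
  · rintro rfl
    exact D.asymm _ _ hA.1.1 h2.1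
  · intro hxy
    exact hA.1.2 y ⟨hxy, h2.1⟩
  · intro hyx
    exact h1.2 x ⟨hyx, hz⟩

theorem Hyp.dom_in (h : Hyp D w k) {u x a : V} (hA : A D u x) (ha : D.arc a u) : D.arc a x := by
  by_contra hn
  have hxa : ¬ D.arc x a := fun hxa => hA.1.2 a ⟨hxa, ha⟩
  have hne : x ≠ a := by
    rintro rfl
    exact D.asymm _ _ ha hA.1.1
  have hq : Q D a x := ⟨hne, hn, hxa, u, ha, hA.1.1⟩
  obtain ⟨y, h1, h2⟩ := h.back a x hq
  refine hA.2 y ⟨hA.1, h1, ?_, ?_, ?_, a, h2.1, ha⟩
  · rintro rfl
    exact D.asymm _ _ hA.1.1 h1.1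
  · intro hyu
    exact hA.1.2 y ⟨h1.1, hyu⟩
  · intro huy
    exact h2.2 u ⟨ha, huy⟩

end Vale.Agent.P038.H38
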