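import Vale.Agent.P038.H597.InOut

/-!
# P038 (H38): the outer minimum, the shift, and the contradiction

`N v` is the closed out-neighbourhood of `v`. `Feas N P Q` are the outer feasible pairs.
If `(P, Q)` is an outer feasible pair of minimum cost, the intersections
`P' a = ⋂ P z` over the closed in-neighbours `z` of `a` (and `Q'` likewise) have cost at most
that of `(P, Q)`, and `(N[P'], N[Q'])` is again feasible. 294's strict inequality for all sets
contradicts this.
-/

namespace Vale.Agent.P038.H38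

open Finset Vale.Agent.P038.H597

variable {V : Type*} [Fintype V] [DecidableEq V]

/-- Outer feasible pairs. -/
structure Feas (N P Q : V → Finset V) : Prop where
  left : ∀ a, N a ⊆ P a
  right : ∀ a, N a ⊆ Q a
  orth : ∀ a b, b ∈ P a → a ∈ Q b → a = b

/-- The product weight of a relation. -/
noncomputable def TT (w : V → ℝ) (S : V → Finset V) : ℝ := ∑ a, w a * wt w (S a)

/-- The transposed relation. -/
def tr (Q : V → Finset V) (a : V) : Finset V := univ.filter fun b => a ∈ Q b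

theorem mem_tr {Q : V → Finset V} {a b : V} : b ∈ tr Q a ↔ a ∈ Q b := by simp [tr]

/-- The cost of a family. -/
noncomputable def cost (N : V → Finset V) (w : V → ℝ) (P : V → Finset V) : ℝ :=
  ∑ a, w a * (wt w (NS N (P a)) - wt w (P a))

theorem cost_eq (N : V → Finset V) (w : V → ℝ) (P : V → Finset V) :
    cost N w P = TT w (fun a => NS N (P a)) - TT w P := by
  unfold cost TT
  rw [← Finset.sum_sub_distrib]
  exact Finset.sum_congr rfl fun a _ => mul_sub _ _ _

theorem TT_tr (w : V → ℝ) (Q : V → Finset V) : TT w (tr Q) = TT w Q := by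
  have e : ∀ S : V → Finset V, TT w S = ∑ a, ∑ b, if b ∈ S a then w a * w b else 0 := by
    intro S
    unfold TT
    refine Finset.sum_congr rfl fun a _ => ?_
    rw [wt_eq_sum_ite, Finset.mul_sum]
    exact Finset.sum_congr rfl fun b _ => by split_ifs <;> simp
  rw [e, e, Finset.sum_comm]
  refine Finset.sum_congr rfl fun a _ => Finset.sum_congr rfl fun b _ => ?_
  simp only [mem_tr]
  split_ifs
  · ring
  · rfl

theorem TT_mono {w : V → ℝ} (hw : ∀ v, 0 ≤ w v) {S T : V → Finset V} (h : ∀ a, S a ⊆ T a) :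
    TT w S ≤ TT w T :=
  Finset.sum_le_sum fun a _ => mul_le_mul_of_nonneg_left (wt_mono hw (h a)) (hw a)

/-- The constant appearing in the four counts. -/
noncomputable def KK (w : V → ℝ) : ℝ := ∑ a, w a * (wt w univ + w a)

theorem count (w : V → ℝ) (A B C : V → Finset V)
    (h1 : ∀ a b, (b ∈ A a ∧ b ∈ B a) ↔ b = a) (h2 : ∀ a b, b ∈ C a ↔ (b ∉ A a ∧ b ∉ B a)) :
    TT w A + TT w B + TT w C = KK w := by
  unfold TT KK
  rw [← Finset.sum_add_distrib, ← Finset.sum_add_distrib]
  refine Finset.sum_congr rfl fun a _ => ?_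
  rw [← mul_add, ← mul_add]
  congr 1
  have e1 : wt w (A a) + wt w (B a) = wt w (A a ∪ B a) + w a := by
    have h3 : A a ∩ B a = {a} := by
      ext b
      rw [Finset.mem_inter, Finset.mem_singleton]
      exact h1 a b
    have h4 := wt_union_inter (w := w) (A a) (B a)
    rw [h3, wt_singleton] at h4
    linarith
  have e2 : C a = univ \ (A a ∪ B a) := by
    ext b
    rw [h2, Finset.mem_sdiff, Finset.mem_union]
    simp
  have e3 := wt_sdiff_add (w := w) (Finset.subset_univ (A a ∪ B a))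
  rw [e1, e2]
  linarith

variable {N P Q : V → Finset V}

theorem Feas.symm (h : Feas N P Q) : Feas N Q P :=
  ⟨h.right, h.left, fun a b h1 h2 => (h.orth b a h2 h1).symm⟩

/-- The gap, as columns: `z ∈ gc P Q b` iff `b ∉ P z` and `z ∉ Q b`. -/
def gc (P Q : V → Finset V) (b : V) : Finset V := univ.filter fun z => b ∉ P z ∧ z ∉ Q b

theorem mem_gc {b z : V} : z ∈ gc P Q b ↔ b ∉ P z ∧ z ∉ Q b := by simp [gc]

theorem mem_NS_of {S : Finset V} {x u : V} (hx : x ∈ S) (hu : u ∈ N x) : u ∈ NS N S :=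
  mem_NS.2 ⟨x, hx, hu⟩

theorem c3 (hr : ∀ v, v ∈ N v) (h : Feas N P Q) (a b : V) :
    (b ∈ cA N P a ∧ b ∈ tr (fun b => NS N (Q b)) a) ↔ b = a := by
  rw [mem_cA, mem_tr]
  constructor
  · rintro ⟨h1, h2⟩
    obtain ⟨q, hq, haq⟩ := mem_NS.1 h2
    have h3 : q = b := h.orth q b (h1 q (mem_inN.2 haq)) hq
    subst h3
    exact (h.orth a q (h1 a (mem_inN.2 (hr a))) (h.right q haq)).symm
  · rintro rfl
    refine ⟨fun z hz => h.left z (mem_inN.1 hz), mem_NS_of (h.right b (hr b)) (hr b)⟩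

/-- The relation `C`: `b ∈ CC a` iff `a ∈ N[gap column b] \ N[Q b]`. -/
def CC (N P Q : V → Finset V) (a : V) : Finset V :=
  univ.filter fun b => a ∉ NS N (Q b) ∧ a ∈ NS N (gc P Q b)

theorem mem_CC {a b : V} : b ∈ CC N P Q a ↔ a ∉ NS N (Q b) ∧ a ∈ NS N (gc P Q b) := by
  simp [CC]

theorem c3' (a b : V) :
    b ∈ CC N P Q a ↔ (b ∉ cA N P a ∧ b ∉ tr (fun b => NS N (Q b)) a) := by
  rw [mem_CC, mem_cA, mem_tr]
  constructor
  · rintro ⟨h1, h2⟩
    obtain ⟨z, hz, haz⟩ := mem_NS.1 h2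
    exact ⟨fun h3 => (mem_gc.1 hz).1 (h3 z (mem_inN.2 haz)), h1⟩
  · rintro ⟨h1, h2⟩
    push Not at h1
    obtain ⟨z, hz, hbz⟩ := h1
    refine ⟨h2, mem_NS_of (mem_gc.2 ⟨hbz, fun h3 => h2 (mem_NS_of h3 (mem_inN.1 hz))⟩)
      (mem_inN.1 hz)⟩

/-- The shifted pair is feasible for the inner problem. -/
theorem shift (hr : ∀ v, v ∈ N v) (h : Feas N P Q) (a u : V) (h1 : u ∈ NS N (cA N P a))
    (h2 : a ∈ NS N (cA N Q u)) : a = u := by
  obtain ⟨p, hp, hup⟩ := mem_NS.1 h1
  obtain ⟨q, hq, haq⟩ := mem_NS.1 h2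
  rw [mem_cA] at hp hq
  have h3 : q = p := h.orth q p (hp q (mem_inN.2 haq)) (hq p (mem_inN.2 hup))
  subst h3
  have h4 : a = q := h.orth a q (hp a (mem_inN.2 (hr a))) (h.right q haq)
  subst h4
  exact h.orth a u (h.left a hup) (hq u (mem_inN.2 (hr u)))

theorem self_mem_cA (h : Feas N P Q) (a : V) : a ∈ cA N P a :=
  mem_cA.2 fun z hz => h.left z (mem_inN.1 hz)

theorem shift_feas (hr : ∀ v, v ∈ N v) (h : Feas N P Q) :
    Feas N (fun a => NS N (cA N P a)) (fun a => NS N (cA N Q a)) := by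
  refine ⟨fun a x hx => mem_NS_of (self_mem_cA h a) hx,
    fun a x hx => mem_NS_of (self_mem_cA h.symm a) hx, fun a b h1 h2 => shift hr h a b h1 h2⟩

/-- The uncovered pairs after the shift. -/
def XX (N P Q : V → Finset V) (a : V) : Finset V :=
  univ.filter fun b => b ∉ NS N (cA N P a) ∧ a ∉ NS N (cA N Q b)

/-- The exact count. -/
theorem cost_sub (w : V → ℝ) (hr : ∀ v, v ∈ N v) (h : Feas N P Q) :
    cost N w P + cost N w Q - (cost N w (cA N P) + cost N w (cA N Q)) =
      TT w (XX N P Q) + TT w (gc Q P) - TT w (CC N P Q) - TT w (tr (CC N Q P)) := by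
  have e1 : TT w P + TT w (tr Q) + TT w (gc Q P) = KK w := by
    refine count w _ _ _ (fun a b => ?_) (fun a b => ?_)
    · rw [mem_tr]
      constructor
      · rintro ⟨h1, h2⟩
        exact (h.orth a b h1 h2).symm
      · rintro rfl
        exact ⟨h.left b (hr b), h.right b (hr b)⟩
    · rw [mem_gc, mem_tr]
      tauto
  have e2 : TT w (fun a => NS N (cA N P a)) + TT w (tr fun a => NS N (cA N Q a)) +
      TT w (XX N P Q) = KK w := by
    refine count w _ _ _ (fun a b => ?_) (fun a b => ?_)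
    · rw [mem_tr]
      constructor
      · rintro ⟨h1, h2⟩
        exact (shift hr h a b h1 h2).symm
      · rintro rfl
        exact ⟨mem_NS_of (self_mem_cA h b) (hr b), mem_NS_of (self_mem_cA h.symm b) (hr b)⟩
    · rw [mem_tr]
      simp [XX]
  have e3 : TT w (cA N P) + TT w (tr fun b => NS N (Q b)) + TT w (CC N P Q) = KK w :=
    count w _ _ _ (c3 hr h) c3'
  have e4 : TT w (cA N Q) + TT w (tr fun b => NS N (P b)) + TT w (CC N Q P) = KK w :=
    count w _ _ _ (c3 hr h.symm) c3'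
  rw [TT_tr] at e1 e2 e3 e4
  rw [cost_eq, cost_eq, cost_eq, cost_eq, TT_tr]
  linarith

/-- Row optimality of a minimiser. -/
theorem row_hall {w : V → ℝ} (hw : ∀ v, 0 < w v) (h : Feas N P Q)
    (hmin : ∀ P' Q', Feas N P' Q' → cost N w P + cost N w Q ≤ cost N w P' + cost N w Q')
    (a : V) (T : Finset V) (hT : ∀ b ∈ T, b ∉ P a ∧ a ∉ Q b) :
    wt w T ≤ wt w (NS N T \ NS N (P a)) := by
  have hf : Feas N (Function.update P a (P a ∪ T)) Q := by
    refine ⟨fun x => ?_, h.right, fun x b h1 h2 => ?_⟩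
    · by_cases hx : x = a
      · subst hx
        rw [Function.update_self]
        exact (h.left x).trans Finset.subset_union_left
      · rw [Function.update_of_ne hx]
        exact h.left x
    · by_cases hx : x = a
      · subst hx
        rw [Function.update_self, Finset.mem_union] at h1
        rcases h1 with h1 | h1
        · exact h.orth x b h1 h2
        · exact absurd h2 (hT b h1).2
      · rw [Function.update_of_ne hx] at h1
        exact h.orth x b h1 h2
  have h1 := hmin _ _ hf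
  have h2 : cost N w (Function.update P a (P a ∪ T)) - cost N w P =
      w a * ((wt w (NS N (P a ∪ T)) - wt w (P a ∪ T)) - (wt w (NS N (P a)) - wt w (P a))) := by
    unfold cost
    rw [← Finset.sum_sub_distrib, Finset.sum_eq_single a]
    · rw [Function.update_self]
      ring
    · intro b _ hb
      rw [Function.update_of_ne hb]
      ring
    · intro h3
      exact absurd (Finset.mem_univ a) h3
  have h3 : 0 ≤ w a * ((wt w (NS N (P a ∪ T)) - wt w (P a ∪ T)) -
      (wt w (NS N (P a)) - wt w (P a))) := by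
    rw [← h2]
    linarith
  have h4 := nonneg_of_mul_nonneg_right h3 (hw a)
  have h5 : wt w (P a ∪ T) = wt w (P a) + wt w T := by
    refine wt_union_disj ?_
    rw [Finset.disjoint_left]
    exact fun x hx hx' => (hT x hx').1 hx
  have h6 : NS N (P a ∪ T) = NS N (P a) ∪ (NS N T \ NS N (P a)) := by
    ext x
    simp only [mem_NS, Finset.mem_union, Finset.mem_sdiff]
    constructor
    · rintro ⟨y, hy | hy, hx⟩
      · exact Or.inl ⟨y, hy, hx⟩
      · by_cases hc : ∃ x_1 ∈ P a, x ∈ N x_1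
        · exact Or.inl hc
        · exact Or.inr ⟨⟨y, hy, hx⟩, hc⟩
    · rintro (⟨y, hy, hx⟩ | ⟨⟨y, hy, hx⟩, -⟩)
      · exact ⟨y, Or.inl hy, hx⟩
      · exact ⟨y, Or.inr hy, hx⟩
  have h7 : wt w (NS N (P a ∪ T)) = wt w (NS N (P a)) + wt w (NS N T \ NS N (P a)) := by
    rw [h6]
    exact wt_union_disj Finset.disjoint_sdiff
  rw [h5, h7] at h4
  linarith

/-- **The shift does not increase the cost of a minimiser.** -/
theorem shift_le {w : V → ℝ} (hw : ∀ v, 0 < w v) (hr : ∀ v, v ∈ N v) (h : Feas N P Q)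
    (hmin : ∀ P' Q', Feas N P' Q' → cost N w P + cost N w Q ≤ cost N w P' + cost N w Q') :
    cost N w (cA N P) + cost N w (cA N Q) ≤ cost N w P + cost N w Q := by
  have hw0 : ∀ v, 0 ≤ w v := fun v => (hw v).le
  have hmin' : ∀ P' Q', Feas N P' Q' →
      cost N w Q + cost N w P ≤ cost N w P' + cost N w Q' := by
    intro P' Q' h'
    have := hmin P' Q' h'
    linarith
  set U : V → Finset V := fun a => univ.filter fun b => b = a ∨ a ∉ Q b with hU
  have memU : ∀ a b, b ∈ U a ↔ (b = a ∨ a ∉ Q b) := fun a b => by simp [hU]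
  have memgap : ∀ a b, b ∈ gapR P U a ↔ (b ∉ P a ∧ a ∉ Q b) := by
    intro a b
    unfold gapR
    rw [Finset.mem_sdiff, memU]
    constructor
    · rintro ⟨rfl | h1, h2⟩
      · exact absurd (h.left _ (hr _)) h2
      · exact ⟨h2, h1⟩
    · rintro ⟨h1, h2⟩
      exact ⟨Or.inr h2, h1⟩
  have hstar := star (N := N) (w := w) (B := P) (U := U) hw0
    (fun z T hT => row_hall hw h hmin z T fun b hb => (memgap z b).1 (hT hb))
    (by
      intro x T hT
      refine (row_hall hw h.symm hmin' x T fun z hz => ?_).trans (wt_mono hw0 ?_)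
      · exact ((memgap z x).1 (hT z hz)).symm
      · intro z hz
        rw [Finset.mem_sdiff] at hz
        refine Finset.mem_filter.2 ⟨hz.1, mem_cA.2 fun z' hz' => (memU z' x).2 (Or.inr ?_)⟩
        exact fun h1 => hz.2 (mem_NS_of h1 (mem_inN.1 hz')))
  have a1 : TT w (CC N P Q) ≤ ∑ z, w z * wt w (PR N P U z) := by
    refine TT_mono hw0 fun a b hb => ?_
    obtain ⟨h1, h2⟩ := mem_CC.1 hb
    obtain ⟨z, hz, haz⟩ := mem_NS.1 h2
    refine Finset.mem_filter.2 ⟨mem_cA.2 fun z' hz' => (memU z' b).2 (Or.inr fun h3 =>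
      h1 (mem_NS_of h3 (mem_inN.1 hz'))), z, mem_inN.2 haz, (mem_gc.1 hz).1⟩
  have a2 : TT w (tr (CC N Q P)) ≤ ∑ z, w z * wt w (QR N P U z) := by
    refine TT_mono hw0 fun a b hb => ?_
    obtain ⟨h1, h2⟩ := mem_CC.1 (mem_tr.1 hb)
    obtain ⟨z, hz, haz⟩ := mem_NS.1 h2
    exact Finset.mem_sdiff.2 ⟨mem_NS_of ((memU a z).2 (Or.inr (mem_gc.1 hz).1)) haz, h1⟩
  have a3 : ∑ z, w z * wt w (KR N P U z) ≤ TT w (XX N P Q) := by
    refine TT_mono hw0 fun a u hu => ?_
    obtain ⟨h1, h2⟩ := Finset.mem_sdiff.1 hu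
    rw [mem_betaR] at h2
    push Not at h2
    obtain ⟨z, hz, huz⟩ := h2
    obtain ⟨b, hb, hub⟩ := mem_NS.1 h1
    rw [mem_cA] at hb
    refine Finset.mem_filter.2 ⟨Finset.mem_univ _, fun h3 => ?_, fun h3 => ?_⟩
    · obtain ⟨p, hp, hup⟩ := mem_NS.1 h3
      exact huz (mem_NS_of (mem_cA.1 hp z hz) hup)
    · obtain ⟨q, hq, haq⟩ := mem_NS.1 h3
      have h4 : q ∈ Q b := mem_cA.1 hq b (mem_inN.2 hub)
      rcases (memU q b).1 (hb q (mem_inN.2 haq)) with h5 | h5
      · subst h5
        rcases (memU a b).1 (hb a (mem_inN.2 (hr a))) with h6 | h6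
        · subst h6
          exact huz (mem_NS_of (h.left z (mem_inN.1 hz)) hub)
        · exact h6 (h.right b haq)
      · exact h5 h4
  have a4 : ∑ z, w z * wt w (gapR P U z) ≤ TT w (gc Q P) := by
    refine TT_mono hw0 fun a b hb => ?_
    have := (memgap a b).1 hb
    exact mem_gc.2 ⟨this.2, this.1⟩
  have := cost_sub w hr h
  linarith

/-- **The contradiction**: an oriented graph (closed out-neighbourhoods `N v`) with positive
weights, 294's strict inequality for all sets, strongly connected, with an arc, does not exist. -/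
theorem club_false {w : V → ℝ} (hw : ∀ v, 0 < w v) (hr : ∀ v, v ∈ N v)
    (hor : ∀ a b, b ∈ N a → a ∈ N b → a = b)
    (hG : ∀ S : Finset V, NS N S ≠ S →
      wt w (NS N (NS N S)) - wt w (NS N S) < wt w (NS N S) - wt w S)
    (hstrong : ∀ S : Finset V, S.Nonempty → (∃ z, z ∉ S) → NS N S ≠ S)
    (harc : ∃ a b, a ≠ b ∧ b ∈ N a) : False := by
  classical
  have h0 : Feas N N N := ⟨fun a => Finset.Subset.refl _, fun a => Finset.Subset.refl _,
    fun a b h1 h2 => hor a b h1 h2⟩
  obtain ⟨⟨P, Q⟩, hPQ, hmin⟩ := Set.exists_min_image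
    {p : (V → Finset V) × (V → Finset V) | Feas N p.1 p.2} (fun p => cost N w p.1 + cost N w p.2)
    (Set.toFinite _) ⟨(N, N), h0⟩
  have hf : Feas N P Q := hPQ
  have h1 := shift_le hw hr hf fun P' Q' h' => hmin (P', Q') h'
  have h2 := hmin (fun a => NS N (cA N P a), fun a => NS N (cA N Q a)) (shift_feas hr hf)
  have hle : ∀ S : Finset V,
      wt w (NS N (NS N S)) - wt w (NS N S) ≤ wt w (NS N S) - wt w S := by
    intro S
    by_cases hS : NS N S = S
    · rw [hS, hS]
    · exact (hG S hS).le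
  have h3 : cost N w (fun a => NS N (cA N Q a)) ≤ cost N w (cA N Q) :=
    Finset.sum_le_sum fun a _ => mul_le_mul_of_nonneg_left (hle _) (hw a).le
  obtain ⟨a, b, hab, hba⟩ := harc
  have h4 : cost N w (fun a => NS N (cA N P a)) < cost N w (cA N P) := by
    refine Finset.sum_lt_sum (fun a _ => mul_le_mul_of_nonneg_left (hle _) (hw a).le)
      ⟨b, Finset.mem_univ _, mul_lt_mul_of_pos_left (hG _ ?_) (hw b)⟩
    refine hstrong _ ⟨b, self_mem_cA hf b⟩ ⟨a, fun ha => hab ?_⟩
    exact (hf.orth b a (mem_cA.1 ha b (mem_inN.2 (hr b))) (hf.right a hba)).symm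
  simp only at h2
  linarith

end Vale.Agent.P038.H38
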