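import Vale.Agent.P038.K4.Sub.Tour

/-!
# An optimal strategy avoids the dominating ends of a family of arcs
-/

namespace Vale.Agent.P038.H38

open Vale.Agent.P038.K4.Sub

variable {V : Type*} [Fintype V]

open Classical in
/-- The game on the arcs of `D`, when along the arcs of `A` the heads are dominated by the tails. -/
theorem fisher [Nonempty V] (D : OGraph V) (A : V → V → Prop) (hA : ∀ u x, A u x → D.arc u x)
    (hout : ∀ u x z, A u x → D.arc x z → D.arc u z)
    (hin : ∀ u x a, A u x → D.arc a u → D.arc a x) (w : V → ℝ) (hw : ∀ v, 0 ≤ w v) :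
    ∃ s, ∑ b, (if D.arc s b then w b else 0) ≤ ∑ b, (if D.arc b s ∧ ¬ A b s then w b else 0) := by
  set a : V → V → ℝ := fun v u => if D.arc v u then 1 else 0 with ha
  have ha0 : ∀ v u, 0 ≤ a v u := fun v u => by simp only [ha]; split_ifs <;> norm_num
  set S : V → V → ℝ := fun v u => a v u - a u v with hSdef
  obtain ⟨l, hl0, hl1, hl⟩ := exists_density S (fun u v => by simp only [hSdef]; ring)
  have hslack : ∀ v, l v * ∑ u, S v u * l u = 0 := by
    have h0 : ∑ v, l v * ∑ u, S v u * l u = 0 := by
      have := skew_sum_eq_zero S (fun u v => by simp only [hSdef]; ring) l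
      simpa only [← Finset.mul_sum] using this
    intro v
    exact (Finset.sum_eq_zero_iff_of_nonneg fun v _ => mul_nonneg (hl0 v) (hl v)).1 h0 v
      (Finset.mem_univ v)
  have hsplit : ∀ v, ∑ u, S v u * l u = ∑ u, a v u * l u - ∑ u, a u v * l u := by
    intro v
    rw [← Finset.sum_sub_distrib]
    exact Finset.sum_congr rfl fun u _ => by simp only [hSdef]; ring
  -- vertices with an arc of `A` have weight zero
  have hsupp : ∀ u x, A u x → l u = 0 := by
    intro u x hux
    by_contra hne
    have hpos : 0 < l u := lt_of_le_of_ne (hl0 u) (Ne.symm hne)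
    have h1 : ∑ t, S u t * l t = 0 := (mul_eq_zero.1 (hslack u)).resolve_left hne
    have h2 := hl x
    rw [hsplit] at h1 h2
    have h3 : ∑ t, a x t * l t ≤ ∑ t, a u t * l t := by
      refine Finset.sum_le_sum fun t _ => mul_le_mul_of_nonneg_right ?_ (hl0 t)
      simp only [ha]
      by_cases hxt : D.arc x t
      · rw [if_pos hxt, if_pos (hout u x t hux hxt)]
      · rw [if_neg hxt]; exact ha0 u t
    have h4 : ∑ t, a t u * l t < ∑ t, a t x * l t := by
      refine Finset.sum_lt_sum (fun t _ => mul_le_mul_of_nonneg_right ?_ (hl0 t))
        ⟨u, Finset.mem_univ u, ?_⟩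
      · simp only [ha]
        by_cases htu : D.arc t u
        · rw [if_pos htu, if_pos (hin u x t hux htu)]
        · rw [if_neg htu]; exact ha0 t x
      · simp only [ha]
        rw [if_neg (D.loopless u), if_pos (hA u x hux)]
        linarith
    linarith
  -- the columns
  have hcol : ∀ b, ∑ t, a t b * l t ≤ ∑ t, (if D.arc b t ∧ ¬ A b t then l t else 0) := by
    intro b
    set L := ∑ t, (if A b t then l t else 0) with hL
    have hL0 : 0 ≤ L := Finset.sum_nonneg fun t _ => by split_ifs; exacts [hl0 t, le_rfl]
    have hR : ∑ t, a b t * l t = L + ∑ t, (if D.arc b t ∧ ¬ A b t then l t else 0) := by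
      rw [hL, ← Finset.sum_add_distrib]
      refine Finset.sum_congr rfl fun t _ => ?_
      simp only [ha]
      by_cases h1 : A b t
      · have h2 := hA b t h1
        simp [h1, h2]
      · by_cases h2 : D.arc b t <;> simp [h1, h2]
    rcases hL0.eq_or_lt with h0 | h0
    · have h2 := hl b
      rw [hsplit, hR, ← h0] at h2
      linarith
    · -- average over the ends of the arcs of `A` at `b`
      set RB := ∑ t, (if D.arc b t ∧ ¬ A b t then l t else 0) with hRB
      have h1 : ∑ x, (if A b x then l x else 0) * ∑ t, S x t * l t = 0 := by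
        refine Finset.sum_eq_zero fun x _ => ?_
        split_ifs
        · exact hslack x
        · rw [zero_mul]
      have h2 : ∑ x, ∑ t, (if A b x then l x else 0) * (S x t * (if A b t then l t else 0)) = 0 :=
        skew_sum_eq_zero S (fun u v => by simp only [hSdef]; ring) fun x => if A b x then l x else 0
      have h3 : ∀ x, (if A b x then l x else 0) * ∑ t, S x t * l t ≤
          (∑ t, (if A b x then l x else 0) * (S x t * (if A b t then l t else 0))) +
            (if A b x then l x else 0) * (RB - ∑ t, a t b * l t) := by
        intro x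
        rw [← Finset.mul_sum, ← mul_add]
        split_ifs with hx
        · refine mul_le_mul_of_nonneg_left ?_ (hl0 x)
          rw [hRB, ← Finset.sum_sub_distrib, ← Finset.sum_add_distrib]
          refine Finset.sum_le_sum fun t _ => ?_
          simp only [hSdef, ha]
          have hlt := hl0 t
          by_cases h5 : A b t
          · have h6 := hA b t h5
            have h7 : ¬ D.arc t b := D.asymm _ _ h6
            simp [h5, h7]
          · by_cases h6 : D.arc t b
            · have h7 := hin b x t hx h6
              have h8 : ¬ D.arc x t := D.asymm _ _ h7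
              have h9 : ¬ D.arc b t := D.asymm _ _ h6
              simp only [h5, h6, h7, h8, h9, if_true, if_false]
              norm_num
            · by_cases h8 : D.arc x t
              · have h9 := hout b x t hx h8
                have h7 : ¬ D.arc t x := D.asymm _ _ h8
                simp only [h5, h6, h7, h8, h9, if_true, if_false]
                norm_num
              · have h10 : (0 : ℝ) ≤ if D.arc t x then 1 else 0 := by split_ifs <;> norm_num
                have h11 : (0 : ℝ) ≤ if D.arc b t ∧ ¬ False then l t else 0 := by
                  split_ifs <;> linarith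
                simp only [h5, h6, h8, if_false]
                nlinarith
        · simp
      have h4 : (0 : ℝ) ≤ L * (RB - ∑ t, a t b * l t) := by
        have := Finset.sum_le_sum fun x (_ : x ∈ Finset.univ) => h3 x
        rw [h1, Finset.sum_add_distrib, h2, ← Finset.sum_mul, zero_add] at this
        exact this
      have h5 := (mul_nonneg_iff_of_pos_left h0).1 h4
      linarith
  -- sum over the columns
  by_contra hcon
  push Not at hcon
  have h1 : ∑ s, l s * ∑ b, (if D.arc b s ∧ ¬ A b s then w b else 0) <
      ∑ s, l s * ∑ b, (if D.arc s b then w b else 0) := by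
    obtain ⟨s, -, hs⟩ : ∃ s ∈ Finset.univ, (0 : ℝ) < l s := by
      by_contra h
      push Not at h
      have : ∑ v, l v ≤ 0 := Finset.sum_nonpos fun v hv => h v hv
      rw [hl1] at this
      linarith
    exact Finset.sum_lt_sum (fun s _ => mul_le_mul_of_nonneg_left (hcon s).le (hl0 s))
      ⟨s, Finset.mem_univ s, mul_lt_mul_of_pos_left (hcon s) hs⟩
  have h2 : ∑ s, l s * ∑ b, (if D.arc s b then w b else 0) = ∑ b, w b * ∑ t, a t b * l t := by
    simp only [Finset.mul_sum]
    rw [Finset.sum_comm]
    refine Finset.sum_congr rfl fun b _ => Finset.sum_congr rfl fun s _ => ?_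
    simp only [ha]
    split_ifs <;> ring
  have h3 : ∑ s, l s * ∑ b, (if D.arc b s ∧ ¬ A b s then w b else 0) =
      ∑ b, w b * ∑ t, (if D.arc b t ∧ ¬ A b t then l t else 0) := by
    simp only [Finset.mul_sum]
    rw [Finset.sum_comm]
    refine Finset.sum_congr rfl fun b _ => Finset.sum_congr rfl fun s _ => ?_
    split_ifs <;> ring
  rw [h2, h3] at h1
  exact absurd (Finset.sum_le_sum fun b _ => mul_le_mul_of_nonneg_left (hcol b) (hw b))
    (not_le.2 h1)

end Vale.Agent.P038.H38
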