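import Vale.Agent.P038.H38.Balance
import Vale.Agent.P038.H38.Fisher

/-!
# Oriented graphs whose nonadjacent second neighbourhoods can be matched into the acyclic arcs
-/

namespace Vale.Agent.P038.H38

variable {V : Type*} [Fintype V] {D : OGraph V} {w : V → ℝ} {k : V → V → V → ℝ}

open Classical in
/-- the in-neighbours of `s` which are not in-neighbours along `A`, by kind -/
theorem Hyp.in_eq (h : Hyp D w k) (s : V) :
    ∑ b, (if D.arc b s ∧ ¬ A D b s then w b else 0) = ∑ z ∈ N2 D s, w z := by
  have e1 : ∀ b, (if D.arc b s ∧ ¬ A D b s then w b else 0) =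
      (if D.arc b s ∧ ¬ R D b s then w b else 0) + (if ∃ u, Wd D b s u then w b else 0) := by
    intro b
    by_cases h1 : D.arc b s
    · by_cases h2 : R D b s
      · by_cases h3 : ∃ u, Wd D b s u
        · have h4 : ¬ A D b s := fun hA => by
            obtain ⟨u, hu⟩ := h3
            exact hA.2 u hu
          simp [h1, h2, h3, h4]
        · have h4 : A D b s := ⟨h2, fun y hy => h3 ⟨y, hy⟩⟩
          simp [h2, h3, h4]
      · have h3 : ¬ ∃ u, Wd D b s u := fun ⟨u, hu⟩ => h2 hu.1
        have h4 : ¬ A D b s := fun hA => h2 hA.1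
        simp [h1, h2, h3, h4]
    · have h3 : ¬ ∃ u, Wd D b s u := fun ⟨u, hu⟩ => h1 hu.1.1
      simp [h1, h3]
  rw [Finset.sum_congr rfl fun b _ => e1 b, Finset.sum_add_distrib, ← h.inbal s,
    ← Finset.sum_add_distrib]
  have e2 : ∀ b, (if D.arc b s ∧ ¬ R D b s then w b else 0) + (if Q D b s then w b else 0) =
      if b ∈ N2 D s then w b else 0 := by
    intro b
    by_cases h1 : D.arc b s
    · have hq : ¬ Q D b s := fun hq => hq.2.1 h1
      by_cases h2 : R D b s
      · have h3 : b ∉ N2 D s := by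
          rw [mem_N2]
          rintro ⟨-, -, t, h4, h5⟩
          exact h2.2 t ⟨h4, h5⟩
        simp [h2, hq, h3]
      · have h3 : b ∈ N2 D s := by
          rw [mem_N2]
          refine ⟨?_, D.asymm _ _ h1, ?_⟩
          · rintro rfl
            exact D.loopless _ h1
          · by_contra hn
            push Not at hn
            exact h2 ⟨h1, fun t ⟨h4, h5⟩ => hn t h4 h5⟩
        simp [h1, h2, hq, h3]
    · by_cases h2 : Q D b s
      · have h3 : b ∈ N2 D s := by
          have h4 := Q_symm_of h h2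
          rw [mem_N2]
          exact ⟨h4.1, h4.2.1, h4.2.2.2⟩
        simp [h1, h2, h3]
      · have h3 : b ∉ N2 D s := by
          rw [mem_N2]
          rintro ⟨h4, h5, t, h6, h7⟩
          exact h2 (Q_symm_of h ⟨h4, h5, h1, t, h6, h7⟩)
        simp [h1, h2, h3]
  rw [Finset.sum_congr rfl fun b _ => e2 b, Finset.sum_ite_mem, Finset.univ_inter]

theorem Hyp.exists_le [Nonempty V] (h : Hyp D w k) :
    ∃ s, ∑ x ∈ N1 D s, w x ≤ ∑ z ∈ N2 D s, w z := by
  classical
  obtain ⟨s, hs⟩ := fisher D (A D) (fun u x hA => hA.1.1) (fun u x z hA hz => h.dom_out hA hz)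
    (fun u x a hA ha => h.dom_in hA ha) w fun v => (h.pos v).le
  refine ⟨s, ?_⟩
  rw [h.in_eq] at hs
  refine le_trans (le_of_eq ?_) hs
  unfold N1
  rw [Finset.sum_filter]

end Vale.Agent.P038.H38
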