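import Mathlib.Combinatorics.Hall.Basic
import Vale.Agent.P038.H38.Final

/-!
# Hall's condition, and tournaments
-/

namespace Vale.Agent.P038.H38

variable {V : Type*} [Fintype V]

/-- A fractional matching at `u` with weights `w`: every `z` with `Q D u z` distributes its whole
weight among the vertices `v` with `R D u v` and `v → z`, and each `v` receives at most its
weight. -/
def FracMatchingQ (D : OGraph V) (w : V → ℝ) (u : V) : Prop :=
  ∃ k : V → V → ℝ, (∀ z v, 0 ≤ k z v) ∧
    (∀ z v, k z v ≠ 0 → Q D u z ∧ R D u v ∧ D.arc v z) ∧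
    (∀ z, Q D u z → ∑ v, k z v = w z) ∧
    ∀ v, ∑ z, k z v ≤ w v

/-- Hall's condition at `u`: every set `Z` of vertices `z` with `Q D u z` has at least `|Z|`
in-neighbours `v` with `R D u v`. -/
def HallQ (D : OGraph V) (u : V) : Prop :=
  ∀ Z : Finset V, (∀ z ∈ Z, Q D u z) →
    Z.card ≤ (open Classical in (Finset.univ.filter fun v => R D u v ∧ ∃ z ∈ Z, D.arc v z)).card

/-- Every pair of `Q` has a return path with two arcs, each of them in no directed triangle. -/
def ReturnQ (D : OGraph V) : Prop := ∀ u z, Q D u z → ∃ y, R D z y ∧ R D y u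

variable {D : OGraph V}

theorem HallQ.frac {u : V} (h : HallQ D u) : FracMatchingQ D (fun _ => 1) u := by
  classical
  -- Hall's theorem
  let t : {z // Q D u z} → Finset V := fun z => Finset.univ.filter fun v => R D u v ∧ D.arc v z.1
  have h1 : ∀ S : Finset {z // Q D u z}, S.card ≤ (S.biUnion t).card := by
    intro S
    have h2 := h (S.map (Function.Embedding.subtype _)) (by
      intro z hz
      rw [Finset.mem_map] at hz
      obtain ⟨z', _, rfl⟩ := hz
      exact z'.2)
    rw [Finset.card_map] at h2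
    refine h2.trans (Finset.card_le_card ?_)
    intro v hv
    rw [Finset.mem_filter] at hv
    obtain ⟨-, hv1, z, hz, hvz⟩ := hv
    rw [Finset.mem_map] at hz
    obtain ⟨z', hz', rfl⟩ := hz
    rw [Finset.mem_biUnion]
    exact ⟨z', hz', Finset.mem_filter.2 ⟨Finset.mem_univ _, hv1, hvz⟩⟩
  obtain ⟨f, hf1, hf2⟩ := (Finset.all_card_le_biUnion_card_iff_exists_injective t).1 h1
  refine ⟨fun z v => if h : Q D u z then (if f ⟨z, h⟩ = v then 1 else 0) else 0, ?_, ?_, ?_, ?_⟩
  · intro z v
    dsimp only
    split_ifs <;> norm_num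
  · intro z v hk
    dsimp only at hk
    split_ifs at hk with h3 h4
    · have h5 := hf2 ⟨z, h3⟩
      rw [h4] at h5
      have h6 := (Finset.mem_filter.1 h5).2
      exact ⟨h3, h6.1, h6.2⟩
    · exact absurd rfl hk
    · exact absurd rfl hk
  · intro z hz
    simp [hz]
  · intro v
    show (∑ z, (if h : Q D u z then (if f ⟨z, h⟩ = v then (1 : ℝ) else 0) else 0)) ≤ 1
    by_cases hv : ∃ z, f z = v
    · obtain ⟨z0, hz0⟩ := hv
      rw [Finset.sum_eq_single z0.1]
      · rw [dif_pos z0.2, if_pos hz0]
      · intro z _ hz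
        split_ifs with h3 h4
        · exact absurd (congrArg Subtype.val (hf1 (h4.trans hz0.symm))) hz
        · rfl
        · rfl
      · intro h3
        exact absurd (Finset.mem_univ _) h3
    · rw [Finset.sum_eq_zero]
      · norm_num
      · intro z _
        split_ifs with h3 h4
        · exact absurd ⟨_, h4⟩ hv
        · rfl
        · rfl

theorem exists_weighted [Nonempty V] {w : V → ℝ} (hw : ∀ v, 0 < w v) (hr : ReturnQ D)
    (h : ∀ x, FracMatchingQ D w x) : ∃ s, ∑ x ∈ N1 D s, w x ≤ ∑ z ∈ N2 D s, w z := by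
  choose K h1 h2 h3 h4 using h
  have hF : Hyp D w K :=
    { pos := hw
      nonneg := h1
      supp := h2
      row := h3
      col := h4
      back := hr }
  exact hF.exists_le

theorem exists_card [Nonempty V] (hr : ReturnQ D) (h : ∀ x, HallQ D x) :
    ∃ s, (N1 D s).card ≤ (N2 D s).card := by
  obtain ⟨s, hs⟩ := exists_weighted (w := fun _ => 1) (fun _ => one_pos) hr fun x => (h x).frac
  refine ⟨s, ?_⟩
  simpa using hs

omit [Fintype V] in
/-- in a tournament there is no pair in `Q` -/
theorem not_Q_of_tournament (h : ∀ u v, u ≠ v → Joined D u v) (u z : V) : ¬ Q D u z := by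
  rintro ⟨h1, h2, h3, -⟩
  rcases h z u h1 with h4 | h4
  · exact h3 h4
  · exact h2 h4

theorem tournament_mem (h : ∀ u v, u ≠ v → Joined D u v) :
    ReturnQ D ∧ (∀ u, HallQ D u) ∧ ∀ w : V → ℝ, (∀ v, 0 < w v) → ∀ u, FracMatchingQ D w u := by
  refine ⟨fun u z hq => absurd hq (not_Q_of_tournament h u z), fun u Z hZ => ?_,
    fun w hw u => ⟨fun _ _ => 0, fun _ _ => le_rfl, fun _ _ hk => absurd rfl hk,
      fun z hq => absurd hq (not_Q_of_tournament h u z), fun v => ?_⟩⟩
  · rw [Finset.card_eq_zero.2 (Finset.eq_empty_of_forall_notMem fun z hz =>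
      not_Q_of_tournament h u z (hZ z hz))]
    exact Nat.zero_le _
  · rw [Finset.sum_const_zero]
    exact (hw v).le

end Vale.Agent.P038.H38
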