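import Vale.Agent.P038.H139.NF

/-!
# P038 (H38): the pairing principle and the antitone two-cycle

`GS D w` is 294's inequality for all sets. Two families of sets `X z`, `Y z` with
`y ∈ L1 (Y z) → z ∈ L2 (X y)` and `y ∈ L1 (X z) → z ∈ L2 (Y y)` contradict it (631).
Theorem A of 610: `(Far)`, `(Mono)`, `(Clo)` give such a pair.
-/

namespace Vale.Agent.P038.H38

open Finset Vale.Agent.P038.H139

variable {V : Type*} [Fintype V]

/-- The first out-layer of a set. -/
noncomputable def L1 [DecidableEq V] (D : OGraph V) (S : Finset V) : Finset V := outS D S \ S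

/-- The second out-layer of a set. -/
noncomputable def L2 [DecidableEq V] (D : OGraph V) (S : Finset V) : Finset V :=
  outS D (outS D S \ S) \ (S ∪ (outS D S \ S))

/-- Strict form of (G) for all sets (`lam = 1`). -/
def GS [DecidableEq V] (D : OGraph V) (w : V → ℝ) : Prop :=
  ∀ S : Finset V, (L1 D S).Nonempty → W w (L2 D S) < W w (L1 D S)

variable [DecidableEq V] {D : OGraph V} {w : V → ℝ}

theorem subset_cl (D : OGraph V) (S : Finset V) : S ⊆ cl D S := fun _ hz => mem_cl.2 (Or.inl hz)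

theorem cl_mono' {S T : Finset V} (h : S ⊆ T) : cl D S ⊆ cl D T := by
  intro z hz
  rw [mem_cl] at hz ⊢
  rcases hz with hz | ⟨y, hy, hyz⟩
  · exact Or.inl (h hz)
  · exact Or.inr ⟨y, h hy, hyz⟩

theorem mem_L1 {S : Finset V} {z : V} : z ∈ L1 D S ↔ (∃ y ∈ S, D.arc y z) ∧ z ∉ S := by
  rw [L1, Finset.mem_sdiff, mem_outS]

theorem mem_L1' {S : Finset V} {z : V} : z ∈ L1 D S ↔ z ∈ cl D S ∧ z ∉ S := by
  rw [mem_L1, mem_cl]
  tauto

theorem mem_L2 {S : Finset V} {z : V} : z ∈ L2 D S ↔ z ∈ cl D (cl D S) ∧ z ∉ cl D S := by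
  rw [L2, Finset.mem_sdiff, Finset.mem_union, mem_outS]
  constructor
  · rintro ⟨⟨y, hy, hyz⟩, hn⟩
    push Not at hn
    obtain ⟨hy1, hy2⟩ := Finset.mem_sdiff.1 hy
    obtain ⟨x, hx, hxy⟩ := mem_outS.1 hy1
    refine ⟨mem_cl.2 (Or.inr ⟨y, mem_cl.2 (Or.inr ⟨x, hx, hxy⟩), hyz⟩), fun hz => ?_⟩
    rcases mem_cl.1 hz with h1 | h1
    · exact hn.1 h1
    · exact hn.2 (Finset.mem_sdiff.2 ⟨mem_outS.2 h1, hn.1⟩)
  · rintro ⟨h1, h2⟩
    have h3 : z ∉ S := fun h => h2 (subset_cl D S h)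
    refine ⟨?_, fun h4 => ?_⟩
    · rcases mem_cl.1 h1 with h4 | ⟨y, hy, hyz⟩
      · exact absurd h4 h2
      · rcases mem_cl.1 hy with h5 | h5
        · exact absurd (mem_cl.2 (Or.inr ⟨y, h5, hyz⟩)) h2
        · refine ⟨y, Finset.mem_sdiff.2 ⟨mem_outS.2 h5, fun h6 => ?_⟩, hyz⟩
          exact h2 (mem_cl.2 (Or.inr ⟨y, h6, hyz⟩))
    · rcases h4 with h4 | h4
      · exact h3 h4
      · exact h2 (mem_cl.2 (Or.inr (mem_outS.1 (Finset.mem_sdiff.1 h4).1)))

theorem L2_empty {S : Finset V} (h : ¬ (L1 D S).Nonempty) : L2 D S = ∅ := by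
  rw [Finset.not_nonempty_iff_eq_empty] at h
  rw [Finset.eq_empty_iff_forall_notMem]
  intro z hz
  obtain ⟨h1, h2⟩ := mem_L2.1 hz
  have h3 : cl D S = S := by
    refine Finset.Subset.antisymm (fun y hy => ?_) (subset_cl D S)
    by_contra hyS
    have : y ∈ L1 D S := mem_L1'.2 ⟨hy, hyS⟩
    rw [h] at this
    exact absurd this (Finset.notMem_empty y)
  rw [h3] at h1
  exact h2 h1

theorem GS.le (hG : GS D w) (S : Finset V) : W w (L2 D S) ≤ W w (L1 D S) := by
  by_cases h : (L1 D S).Nonempty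
  · exact (hG S h).le
  · have h1 := L2_empty h
    rw [Finset.not_nonempty_iff_eq_empty] at h
    rw [h, h1]

/-- one half of the pairing: exchange of the two sums -/
theorem sum_pair_le (hw : ∀ v, 0 ≤ w v) (A B : V → Finset V) (h : ∀ z y, y ∈ A z → z ∈ B y) :
    ∑ z, w z * W w (A z) ≤ ∑ z, w z * W w (B z) := by
  classical
  have e : ∀ A : V → Finset V, ∑ z, w z * W w (A z) =
      ∑ z, ∑ y, (if y ∈ A z then w z * w y else 0) := by
    intro A
    refine Finset.sum_congr rfl fun z _ => ?_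
    unfold W
    rw [Finset.mul_sum, Finset.sum_ite_mem, Finset.univ_inter]
  rw [e A, e B, Finset.sum_comm]
  refine Finset.sum_le_sum fun y _ => Finset.sum_le_sum fun z _ => ?_
  by_cases hz : y ∈ A z
  · rw [if_pos hz, if_pos (h z y hz), mul_comm]
  · rw [if_neg hz]
    split_ifs
    · exact mul_nonneg (hw _) (hw _)
    · exact le_rfl

/-- **The pairing principle** (631, note 21958). -/
theorem pairing (hw : ∀ v, 0 ≤ w v) (hG : GS D w) (X Y : V → Finset V)
    (h1 : ∀ z y, y ∈ L1 D (Y z) → z ∈ L2 D (X y)) (h2 : ∀ z y, y ∈ L1 D (X z) → z ∈ L2 D (Y y))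
    (hpos : ∃ z, 0 < w z ∧ (L1 D (X z)).Nonempty) : False := by
  have a1 := sum_pair_le hw (fun z => L1 D (Y z)) (fun z => L2 D (X z)) h1
  have a2 := sum_pair_le hw (fun z => L1 D (X z)) (fun z => L2 D (Y z)) h2
  have a3 : ∑ z, w z * W w (L2 D (Y z)) ≤ ∑ z, w z * W w (L1 D (Y z)) :=
    Finset.sum_le_sum fun z _ => mul_le_mul_of_nonneg_left (hG.le (Y z)) (hw z)
  obtain ⟨z0, hz0, hne⟩ := hpos
  have a4 : ∑ z, w z * W w (L2 D (X z)) < ∑ z, w z * W w (L1 D (X z)) :=
    Finset.sum_lt_sum (fun z _ => mul_le_mul_of_nonneg_left (hG.le (X z)) (hw z))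
      ⟨z0, Finset.mem_univ _, mul_lt_mul_of_pos_left (hG (X z0) hne) hz0⟩
  linarith

/-- Weighted form: it is enough that the pairs violating the implications have no more weight
than the pairs of type `(L2, L2)`. -/
theorem pairing_sum (hw : ∀ v, 0 ≤ w v) (hG : GS D w) (X Y : V → Finset V)
    (hsum : ∑ z, w z * W w (L1 D (X z)) + ∑ z, w z * W w (L1 D (Y z)) ≤
      ∑ z, w z * W w (L2 D (X z)) + ∑ z, w z * W w (L2 D (Y z)))
    (hpos : ∃ z, 0 < w z ∧ (L1 D (X z)).Nonempty) : False := by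
  have a3 : ∑ z, w z * W w (L2 D (Y z)) ≤ ∑ z, w z * W w (L1 D (Y z)) :=
    Finset.sum_le_sum fun z _ => mul_le_mul_of_nonneg_left (hG.le (Y z)) (hw z)
  obtain ⟨z0, hz0, hne⟩ := hpos
  have a4 : ∑ z, w z * W w (L2 D (X z)) < ∑ z, w z * W w (L1 D (X z)) :=
    Finset.sum_lt_sum (fun z _ => mul_le_mul_of_nonneg_left (hG.le (X z)) (hw z))
      ⟨z0, Finset.mem_univ _, mul_lt_mul_of_pos_left (hG (X z0) hne) hz0⟩
  linarith

/-- The antitone map: `Phi D X z = {z} ∪ {y : z ∉ N[N[X y]]}`. -/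
noncomputable def Phi (D : OGraph V) (X : V → Finset V) (z : V) : Finset V :=
  Finset.univ.filter fun y => y = z ∨ z ∉ cl D (cl D (X y))

theorem mem_Phi {X : V → Finset V} {z y : V} :
    y ∈ Phi D X z ↔ y = z ∨ z ∉ cl D (cl D (X y)) := by
  simp [Phi]

theorem self_mem_Phi (X : V → Finset V) (z : V) : z ∈ Phi D X z := mem_Phi.2 (Or.inl rfl)

theorem Phi_anti {X X' : V → Finset V} (h : ∀ z, X z ⊆ X' z) (z : V) :
    Phi D X' z ⊆ Phi D X z := by
  intro y hy
  rw [mem_Phi] at hy ⊢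
  rcases hy with hy | hy
  · exact Or.inl hy
  · exact Or.inr fun h1 => hy (cl_mono' (cl_mono' (h y)) h1)

/-- `z` is reached from `r` in at most two steps -/
theorem two_of_arc {r z : V} (h : D.arc r z) : z ∈ cl D (cl D {r}) :=
  subset_cl _ _ (mem_cl.2 (Or.inr ⟨r, Finset.mem_singleton_self r, h⟩))

theorem two_of_arcs {r y z : V} (h : D.arc r y) (h' : D.arc y z) : z ∈ cl D (cl D {r}) :=
  mem_cl.2 (Or.inr ⟨y, mem_cl.2 (Or.inr ⟨r, Finset.mem_singleton_self r, h⟩), h'⟩)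

/-- `(Far)`: the only vertex of `X z` within distance two of `z` is `z` itself. -/
def Far (D : OGraph V) (X : V → Finset V) : Prop :=
  ∀ z r, r ∈ X z → z ∈ cl D (cl D {r}) → r = z

/-- `(Mono)` -/
def Mono (D : OGraph V) (X : V → Finset V) : Prop := ∀ r y, D.arc r y → X y ⊆ cl D (X r)

/-- Theorem A (I) -/
theorem thmA1 {X : V → Finset V} (hfar : Far D X) (hmono : Mono D X) (z y : V)
    (h : y ∈ L1 D (Phi D X z)) : z ∈ L2 D (X y) := by
  obtain ⟨⟨r, hr, hry⟩, hy⟩ := mem_L1.1 h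
  rw [mem_Phi] at hy
  push Not at hy
  refine mem_L2.2 ⟨hy.2, fun hz => ?_⟩
  rcases mem_Phi.1 hr with rfl | hr'
  · -- `r = z`
    rcases mem_cl.1 hz with h1 | ⟨r', h1, h2⟩
    · exact hy.1 (hfar y r h1 (two_of_arc hry)).symm
    · have h3 := hfar y r' h1 (two_of_arcs h2 hry)
      subst h3
      exact D.asymm _ _ hry h2
  · exact hr' (cl_mono' (hmono r y hry) hz)

/-- `(Clo)` for the pair `X`, `Y` -/
theorem thmA2 {X : V → Finset V} (hself : ∀ z, z ∈ X z) (hfar : Far D X) (hmono : Mono D X)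
    (hclo : ∀ z, Phi D (Phi D X) z ⊆ X z) (z y : V)
    (h : y ∈ L1 D (X z)) : z ∈ L2 D (Phi D X y) := by
  obtain ⟨⟨r, hr, hry⟩, hy⟩ := mem_L1.1 h
  have hyz : y ≠ z := by
    rintro rfl
    exact hy (hself _)
  have h1 : z ∈ cl D (cl D (Phi D X y)) := by
    by_contra hn
    exact hy (hclo z (mem_Phi.2 (Or.inr hn)))
  refine mem_L2.2 ⟨h1, fun hz => ?_⟩
  rcases mem_cl.1 hz with h2 | ⟨r', h2, h3⟩
  · rcases mem_Phi.1 h2 with h4 | h4
    · exact hyz h4.symm
    · exact h4 (subset_cl _ _ (mem_cl.2 (Or.inr ⟨r, hr, hry⟩)))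
  · rcases mem_Phi.1 h2 with h4 | h4
    · subst h4
      have h5 := hfar z r hr (two_of_arcs hry h3)
      subst h5
      exact D.asymm _ _ hry h3
    · exact h4 (mem_cl.2 (Or.inr ⟨r, hmono r' z h3 hr, hry⟩))

/-- **Theorem A** (610, note 22133). -/
theorem thmA (hw : ∀ v, 0 < w v) (hG : GS D w) {X : V → Finset V} (hself : ∀ z, z ∈ X z)
    (hfar : Far D X) (hmono : Mono D X) (hclo : ∀ z, Phi D (Phi D X) z ⊆ X z)
    (hpos : ∃ z, (L1 D (X z)).Nonempty) : False := by
  obtain ⟨z, hz⟩ := hpos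
  exact pairing (fun v => (hw v).le) hG X (Phi D X) (fun z y h => thmA1 hfar hmono z y h)
    (fun z y h => thmA2 hself hfar hmono hclo z y h) ⟨z, hw z, hz⟩

/-- For a two-cycle of `Phi` it is enough that there is no pair of type `(L1, L1)`
(81, note 22056). -/
theorem pairing_bad (hw : ∀ v, 0 < w v) (hG : GS D w) {X : V → Finset V}
    (hfix : ∀ z, Phi D (Phi D X) z = X z)
    (hno : ∀ z y, y ∈ L1 D (X z) → z ∉ L1 D (Phi D X y))
    (hpos : ∃ z, (L1 D (X z)).Nonempty) : False := by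
  have hself : ∀ z, z ∈ X z := fun z => by
    rw [← hfix z]
    exact self_mem_Phi _ z
  obtain ⟨z, hz⟩ := hpos
  refine pairing (fun v => (hw v).le) hG X (Phi D X) ?_ ?_ ⟨z, hw z, hz⟩
  · intro z y h
    have h0 := h
    obtain ⟨⟨r, hr, hry⟩, hy⟩ := mem_L1.1 h
    rw [mem_Phi] at hy
    push Not at hy
    refine mem_L2.2 ⟨hy.2, fun hc => ?_⟩
    by_cases hzX : z ∈ X y
    · rw [← hfix y] at hzX
      rcases mem_Phi.1 hzX with h4 | h4
      · exact hy.1 h4.symm
      · exact h4 (subset_cl _ _ (mem_cl.2 (Or.inr ⟨r, hr, hry⟩)))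
    · exact hno y z (mem_L1'.2 ⟨hc, hzX⟩) h0
  · intro z y h
    obtain ⟨⟨r, hr, hry⟩, hy⟩ := mem_L1.1 h
    have h1 : z ∈ cl D (cl D (Phi D X y)) := by
      by_contra hn
      rw [← hfix z] at hy
      exact hy (mem_Phi.2 (Or.inr hn))
    refine mem_L2.2 ⟨h1, fun hz => ?_⟩
    by_cases h2 : z ∈ Phi D X y
    · rcases mem_Phi.1 h2 with h4 | h4
      · exact hy (h4 ▸ hself z)
      · exact h4 (subset_cl _ _ (mem_cl.2 (Or.inr ⟨r, hr, hry⟩)))
    · exact hno z y h (mem_L1'.2 ⟨hz, h2⟩)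

theorem Phi_far {X : V → Finset V} (hself : ∀ z, z ∈ X z) : Far D (Phi D X) := by
  intro z r hr hz
  rcases mem_Phi.1 hr with h | h
  · exact h
  · exact absurd (cl_mono' (cl_mono' (Finset.singleton_subset_iff.2 (hself r))) hz) h

/-- the even iterates of `Phi`, starting with the singletons -/
noncomputable def lo (D : OGraph V) : ℕ → V → Finset V
  | 0 => fun z => {z}
  | k + 1 => Phi D (Phi D (lo D k))

theorem lo_self (k : ℕ) (z : V) : z ∈ lo D k z := by
  cases k with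
  | zero => exact Finset.mem_singleton_self z
  | succ k => exact self_mem_Phi _ z

theorem lo_step (k : ℕ) (z : V) : lo D k z ⊆ lo D (k + 1) z := by
  induction k generalizing z with
  | zero => exact Finset.singleton_subset_iff.2 (self_mem_Phi _ z)
  | succ k ih => exact Phi_anti (fun y => Phi_anti (fun x => ih x) y) z

theorem lo_mono : Monotone (lo D : ℕ → V → Finset V) :=
  monotone_nat_of_le_succ fun k => fun z => lo_step k z

theorem lo_far (k : ℕ) : Far D (lo D k) := by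
  cases k with
  | zero => intro z r hr _; exact Finset.mem_singleton.1 hr
  | succ k => exact Phi_far fun z => self_mem_Phi _ z

/-- The least family `X` with `Phi (Phi X) = X`. -/
theorem exists_lo (D : OGraph V) : ∃ X : V → Finset V, (∀ z, z ∈ X z) ∧ Far D X ∧
    (∀ z, Phi D (Phi D X) z = X z) ∧
    ∀ X' : V → Finset V, (∀ z, Phi D (Phi D X') z ⊆ X' z) → ∀ z, X z ⊆ X' z := by
  obtain ⟨n, hn⟩ := WellFoundedGT.monotone_chain_condition ⟨lo D, lo_mono⟩
  have h1 : lo D n = lo D (n + 1) := hn (n + 1) (Nat.le_succ n)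
  refine ⟨lo D n, lo_self n, lo_far n, fun z => (congrFun h1 z).symm, fun X' hX' => ?_⟩
  have h2 : ∀ k z, lo D k z ⊆ X' z := by
    intro k
    induction k with
    | zero => exact fun z => Finset.singleton_subset_iff.2 (hX' z (self_mem_Phi _ z))
    | succ k ih =>
      exact fun z => (Phi_anti (fun y => Phi_anti (fun x => ih x) y) z).trans (hX' z)
  exact h2 n

/-- **Reduction of 610 / 81**: with 294's inequality for all sets there is a least two-cycle of
`Phi`, it violates `Mono`, and it has a pair of type `(L1, L1)`. -/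
theorem exists_not_mono (hw : ∀ v, 0 < w v) (hG : GS D w)
    (hstrong : ∀ S : Finset V, S.Nonempty → (∃ z, z ∉ S) → (L1 D S).Nonempty)
    (harc : ∃ a b, D.arc a b) :
    ∃ X : V → Finset V, (∀ z, z ∈ X z) ∧ Far D X ∧ (∀ z, Phi D (Phi D X) z = X z) ∧
      ¬ Mono D X ∧ ∃ z y, y ∈ L1 D (X z) ∧ z ∈ L1 D (Phi D X y) := by
  obtain ⟨X, hself, hfar, hfix, -⟩ := exists_lo D
  obtain ⟨a, b, hab⟩ := harc
  have hpos : ∃ z, (L1 D (X z)).Nonempty := by
    refine ⟨b, hstrong _ ⟨b, hself b⟩ ⟨a, fun ha => ?_⟩⟩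
    have := hfar b a ha (two_of_arc hab)
    subst this
    exact D.loopless _ hab
  refine ⟨X, hself, hfar, hfix, fun hm => thmA hw hG hself hfar hm (fun z => (hfix z).subset) hpos,
    ?_⟩
  by_contra hno
  push Not at hno
  exact pairing_bad hw hG hfix hno hpos

/-! ### The joint minimum cut (366 note 22329, 413 note 22278) -/

/-- Orthogonal pairs of families. -/
structure Orth (D : OGraph V) (Y Z : V → Finset V) : Prop where
  left : ∀ a, a ∈ Y a
  right : ∀ a, a ∈ Z a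
  orth : ∀ a x, a ≠ x → x ∈ cl D (Y a) → a ∉ cl D (Z x)

/-- The energy of a family. -/
noncomputable def En (D : OGraph V) (w : V → ℝ) (Y : V → Finset V) : ℝ :=
  ∑ a, w a * W w (L1 D (Y a))

/-- The inequality (OPT): at a minimum of the energy over the orthogonal pairs the second layers
weigh at least as much as the first ones. -/
def OPT (D : OGraph V) (w : V → ℝ) : Prop :=
  ∀ Y Z : V → Finset V, Orth D Y Z →
    (∀ Y' Z' : V → Finset V, Orth D Y' Z' → En D w Y + En D w Z ≤ En D w Y' + En D w Z') →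
    ∑ a, w a * W w (L1 D (Y a)) + ∑ a, w a * W w (L1 D (Z a)) ≤
      ∑ a, w a * W w (L2 D (Y a)) + ∑ a, w a * W w (L2 D (Z a))

theorem orth_singleton (D : OGraph V) : Orth D (fun a => {a}) (fun a => {a}) := by
  refine ⟨fun a => Finset.mem_singleton_self a, fun a => Finset.mem_singleton_self a, ?_⟩
  intro a x hax h1 h2
  rcases mem_cl.1 h1 with h3 | ⟨y, hy, h3⟩
  · exact hax (Finset.mem_singleton.1 h3).symm
  · rw [Finset.mem_singleton] at hy
    subst hy
    rcases mem_cl.1 h2 with h4 | ⟨y', hy', h4⟩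
    · exact hax (Finset.mem_singleton.1 h4)
    · rw [Finset.mem_singleton] at hy'
      subst hy'
      exact D.asymm _ _ h3 h4

/-- (OPT) contradicts 294's inequality. -/
theorem opt_false (hw : ∀ v, 0 < w v) (hG : GS D w)
    (hstrong : ∀ S : Finset V, S.Nonempty → (∃ z, z ∉ S) → (L1 D S).Nonempty)
    (harc : ∃ a b, D.arc a b) (hO : OPT D w) : False := by
  classical
  obtain ⟨⟨Y, Z⟩, hYZ, hmin⟩ := Set.exists_min_image
    {p : (V → Finset V) × (V → Finset V) | Orth D p.1 p.2} (fun p => En D w p.1 + En D w p.2)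
    (Set.toFinite _) ⟨(fun a => {a}, fun a => {a}), orth_singleton D⟩
  have h1 := hO Y Z hYZ fun Y' Z' h' => hmin (Y', Z') h'
  obtain ⟨a, b, hab⟩ := harc
  refine pairing_sum (fun v => (hw v).le) hG Y Z h1 ⟨b, hw b, hstrong _ ⟨b, hYZ.left b⟩ ⟨a, ?_⟩⟩
  intro ha
  refine hYZ.orth b a ?_ (subset_cl _ _ ha) (mem_cl.2 (Or.inr ⟨a, hYZ.right a, hab⟩))
  rintro rfl
  exact D.loopless _ hab

end Vale.Agent.P038.H38
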