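import Vale.Agent.P038.H38.Club
import Vale.Agent.P038.H38.Strong
import Vale.Agent.P038.H71.Plan

/-!
# P038 (H38): Seymour's second neighbourhood conjecture, weighted form
-/

namespace Vale.Agent.P038.H38

open Finset Vale.Agent.P038.H139 Vale.Agent.P038.H597

universe u

variable {V : Type u} [Fintype V] {D : OGraph V} {w : V → ℝ}

/-- 294's strict inequality from the normal form with the fewest arcs. -/
theorem GS_of_NFmin [DecidableEq V] (h : NFmin 1 D w) : GS D w := by
  intro S hS
  have h1 : (∅ : Finset V) ⊂ H71.Lx D S := Finset.empty_ssubset.2 hS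
  have h2 := H71.plan_lt h S ∅ h1
  unfold H71.dd at h2
  have e1 : W w (cl D (∅ : Finset V) \ S) = 0 := by
    have : cl D (∅ : Finset V) = ∅ := by
      rw [Finset.eq_empty_iff_forall_notMem]
      intro z hz
      rcases mem_cl.1 hz with h3 | ⟨y, h3, -⟩
      · exact Finset.notMem_empty z h3
      · exact Finset.notMem_empty y h3
    rw [this]
    simp [W]
  have e2 : W w (∅ : Finset V) = 0 := by simp [W]
  rw [e1, e2] at h2
  have e3 : cl D (H71.Lx D S) \ S = L2 D S ∪ L1 D S := by
    ext z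
    rw [Finset.mem_sdiff, Finset.mem_union, mem_L2, mem_L1', mem_cl]
    constructor
    · rintro ⟨h3, h4⟩
      by_cases h5 : z ∈ cl D S
      · exact Or.inr ⟨h5, h4⟩
      · refine Or.inl ⟨?_, h5⟩
        rcases h3 with h3 | ⟨y, hy, hyz⟩
        · exact absurd (mem_L1'.1 h3).1 h5
        · exact mem_cl.2 (Or.inr ⟨y, (mem_L1'.1 hy).1, hyz⟩)
    · rintro (⟨h3, h4⟩ | ⟨h3, h4⟩)
      · have h5 : z ∉ S := fun h6 => h4 (subset_cl D S h6)
        refine ⟨?_, h5⟩
        rcases mem_cl.1 h3 with h6 | ⟨y, hy, hyz⟩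
        · exact absurd h6 h4
        · refine Or.inr ⟨y, mem_L1'.2 ⟨hy, fun h7 => h4 (mem_cl.2 (Or.inr ⟨y, h7, hyz⟩))⟩, hyz⟩
      · exact ⟨Or.inl (mem_L1'.2 ⟨h3, h4⟩), h4⟩
  have e4 : W w (L2 D S ∪ L1 D S) = W w (L2 D S) + W w (L1 D S) := by
    refine Finset.sum_union ?_
    rw [Finset.disjoint_left]
    intro z hz hz'
    exact (mem_L2.1 hz).2 (mem_L1'.1 hz').1
  have e5 : H71.Lx D S = L1 D S := rfl
  rw [e3, e4, e5] at h2
  linarith

/-- No normal form exists. -/
theorem not_NF [Nonempty V] (D : OGraph V) (w : V → ℝ) : ¬ NF 1 D w := by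
  classical
  intro hNF
  obtain ⟨D, w, h⟩ := exists_nfmin hNF
  have hG := GS_of_NFmin h
  have hcl : ∀ S : Finset V, NS (fun v => cl D {v}) S = cl D S := by
    intro S
    ext z
    rw [mem_NS, mem_cl]
    constructor
    · rintro ⟨x, hx, hz⟩
      rcases mem_cl.1 hz with h1 | ⟨y, hy, hyz⟩
      · rw [Finset.mem_singleton] at h1
        subst h1
        exact Or.inl hx
      · rw [Finset.mem_singleton] at hy
        subst hy
        exact Or.inr ⟨y, hx, hyz⟩
    · rintro (h1 | ⟨y, hy, hyz⟩)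
      · exact ⟨z, h1, subset_cl _ _ (Finset.mem_singleton_self z)⟩
      · exact ⟨y, hy, mem_cl.2 (Or.inr ⟨y, Finset.mem_singleton_self y, hyz⟩)⟩
  have hmem : ∀ a b, b ∈ cl D {a} ↔ b = a ∨ D.arc a b := by
    intro a b
    rw [mem_cl]
    constructor
    · rintro (h1 | ⟨y, hy, hyz⟩)
      · exact Or.inl (Finset.mem_singleton.1 h1)
      · rw [Finset.mem_singleton] at hy
        subst hy
        exact Or.inr hyz
    · rintro (rfl | h1)
      · exact Or.inl (Finset.mem_singleton_self _)
      · exact Or.inr ⟨a, Finset.mem_singleton_self a, h1⟩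
  have hwt : ∀ S : Finset V, W w (L1 D S) = wt w (cl D S) - wt w S := by
    intro S
    have h1 : L1 D S = cl D S \ S := by
      ext z
      rw [mem_L1', Finset.mem_sdiff]
    have h2 := wt_sdiff_add (w := w) (subset_cl D S)
    rw [h1]
    unfold W
    unfold wt at h2 ⊢
    linarith
  have hwt2 : ∀ S : Finset V, W w (L2 D S) = wt w (cl D (cl D S)) - wt w (cl D S) := by
    intro S
    have h1 : L2 D S = cl D (cl D S) \ cl D S := by
      ext z
      rw [mem_L2, Finset.mem_sdiff]
    have h2 := wt_sdiff_add (w := w) (subset_cl D (cl D S))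
    rw [h1]
    unfold W
    unfold wt at h2 ⊢
    linarith
  have hne : ∀ S : Finset V, cl D S ≠ S ↔ (L1 D S).Nonempty := by
    intro S
    constructor
    · intro h1
      by_contra h2
      rw [Finset.not_nonempty_iff_eq_empty] at h2
      refine h1 (Finset.Subset.antisymm (fun z hz => ?_) (subset_cl D S))
      by_contra hzS
      have : z ∈ L1 D S := mem_L1'.2 ⟨hz, hzS⟩
      rw [h2] at this
      exact absurd this (Finset.notMem_empty z)
    · rintro ⟨z, hz⟩ h2
      obtain ⟨h3, h4⟩ := mem_L1'.1 hz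
      rw [h2] at h3
      exact h4 h3
  refine club_false (N := fun v => cl D {v}) h.toNF.pos ?_ ?_ ?_ ?_ ?_
  · exact fun v => subset_cl _ _ (Finset.mem_singleton_self v)
  · intro a b h1 h2
    rcases (hmem a b).1 h1 with h3 | h3
    · exact h3.symm
    · rcases (hmem b a).1 h2 with h4 | h4
      · exact h4
      · exact absurd h4 (D.asymm _ _ h3)
  · intro S hS
    rw [hcl] at hS
    rw [hcl, hcl, ← hwt2, ← hwt]
    exact hG S ((hne S).1 hS)
  · intro S h1 h2
    rw [hcl]
    exact (hne S).2 (strong_of_NF h.toNF S h1 h2)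
  · obtain ⟨a, b, hab⟩ := exists_arc_of_NF h.toNF
    refine ⟨a, b, ?_, (hmem a b).2 (Or.inr hab)⟩
    rintro rfl
    exact D.loopless _ hab

/-- **Seymour's second neighbourhood conjecture, weighted**: for every nonnegative vertex weight
there is a vertex whose second out-neighbourhood weighs at least as much as its first. -/
theorem snc_weighted {V : Type u} [Fintype V] [Nonempty V] (D : OGraph V) (w : V → ℝ)
    (hw : ∀ v, 0 ≤ w v) : ∃ v, ∑ u ∈ N1 D v, w u ≤ ∑ u ∈ N2 D v, w u := by
  obtain ⟨v, hv⟩ := snc_of_noNF (lam := 1) zero_le_one (fun V _ _ D w => not_NF D w) D w hw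
  exact ⟨v, by simpa using hv⟩

/-- **Seymour's second neighbourhood conjecture.** -/
theorem snc {V : Type u} [Fintype V] [Nonempty V] (D : OGraph V) :
    ∃ v, (N1 D v).card ≤ (N2 D v).card := by
  obtain ⟨v, hv⟩ := snc_weighted D (fun _ => 1) fun _ => zero_le_one
  refine ⟨v, ?_⟩
  simpa using hv

end Vale.Agent.P038.H38
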