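import Vale.Agent.P038.Defs

/-!
# Words of three vertices, and the balance of the arcs on them
-/

namespace Vale.Agent.P038.H38

/-- the arc from `u` to `v` exists and lies in no directed triangle -/
def R {V : Type*} (D : OGraph V) (u v : V) : Prop :=
  D.arc u v ∧ ∀ t, ¬ (D.arc v t ∧ D.arc t u)

/-- `z` is a second out-neighbour of `u`, and there is no arc between `u` and `z` -/
def Q {V : Type*} (D : OGraph V) (u z : V) : Prop :=
  z ≠ u ∧ ¬ D.arc u z ∧ ¬ D.arc z u ∧ ∃ v, D.arc u v ∧ D.arc v z

/-- words: `a → b → c` by arcs in no directed triangle, and `a` is in `Q(c)` -/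
def Wd {V : Type*} (D : OGraph V) (a b c : V) : Prop := R D a b ∧ R D b c ∧ Q D c a

/-- The hypotheses: the vertices of `Q(u)` are matched fractionally with the arcs of `R` at `u`,
and every pair of `Q` has a return path in `R`. -/
structure Hyp {V : Type*} [Fintype V] (D : OGraph V) (w : V → ℝ) (k : V → V → V → ℝ) : Prop where
  pos : ∀ v, 0 < w v
  nonneg : ∀ u z v, 0 ≤ k u z v
  supp : ∀ u z v, k u z v ≠ 0 → Q D u z ∧ R D u v ∧ D.arc v z
  row : ∀ u z, Q D u z → ∑ v, k u z v = w z
  col : ∀ u v, ∑ z, k u z v ≤ w v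
  back : ∀ u z, Q D u z → ∃ y, R D z y ∧ R D y u

variable {V : Type*} {D : OGraph V} {w : V → ℝ} {k : V → V → V → ℝ}

open Classical in
/-- the indicator of the words -/
noncomputable def I (D : OGraph V) (a b c : V) : ℝ := if Wd D a b c then 1 else 0

theorem I_nonneg (a b c : V) : 0 ≤ I D a b c := by
  unfold I; split_ifs <;> norm_num

theorem I_le (a b c : V) : I D a b c ≤ 1 := by
  unfold I; split_ifs <;> norm_num

theorem I_of {a b c : V} (h : Wd D a b c) : I D a b c = 1 := by
  unfold I; rw [if_pos h]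

theorem I_of_not {a b c : V} (h : ¬ Wd D a b c) : I D a b c = 0 := by
  unfold I; rw [if_neg h]

theorem wd_of_I {a b c : V} (h : I D a b c ≠ 0) : Wd D a b c := by
  by_contra h'
  exact h (I_of_not h')

variable [Fintype V]

/-- the rotation of a word is a word -/
theorem Hyp.rot (h : Hyp D w k) {d y u v : V} (hw : Wd D d y u) (hk : k u d v ≠ 0) :
    Wd D y u v := by
  obtain ⟨hdy, hyu, hud⟩ := hw
  obtain ⟨-, huv, hvd⟩ := h.supp u d v hk
  refine ⟨hyu, huv, ?_, ?_, ?_, d, hvd, hdy.1⟩
  · rintro rfl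
    exact D.asymm _ _ huv.1 hyu.1
  · intro hvy
    exact huv.2 y ⟨hvy, hyu.1⟩
  · intro hyv
    exact hdy.2 v ⟨hyv, hvd⟩

/-- the total weight that is moved from the words `(d, y, u)` to `(y, u, v)` -/
noncomputable def tr (D : OGraph V) (k : V → V → V → ℝ) (y u v : V) : ℝ :=
  ∑ d, I D d y u * k u d v

/-- weight of the words beginning with an arc -/
noncomputable def c1 (D : OGraph V) (w : V → ℝ) (a b : V) : ℝ := ∑ c, I D a b c * w c

/-- weight of the words ending with an arc -/
noncomputable def c2 (D : OGraph V) (w : V → ℝ) (b c : V) : ℝ := ∑ a, I D a b c * w a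

/-- weight of the words with given end vertices -/
noncomputable def q (D : OGraph V) (w : V → ℝ) (c a : V) : ℝ := ∑ b, I D a b c * w b

theorem Hyp.tr_le (h : Hyp D w k) (y u v : V) : tr D k y u v ≤ I D y u v * w v := by
  by_cases hw : Wd D y u v
  · rw [I_of hw, one_mul]
    refine le_trans (Finset.sum_le_sum fun d _ => ?_) (h.col u v)
    exact mul_le_of_le_one_left (h.nonneg u d v) (I_le d y u)
  · rw [I_of_not hw, zero_mul]
    refine (Finset.sum_eq_zero fun d _ => ?_).le
    by_contra hne
    exact hw (h.rot (wd_of_I (left_ne_zero_of_mul hne)) (right_ne_zero_of_mul hne))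

theorem Hyp.sum_tr (h : Hyp D w k) (y u : V) : ∑ v, tr D k y u v = c2 D w y u := by
  unfold tr c2
  rw [Finset.sum_comm]
  refine Finset.sum_congr rfl fun d _ => ?_
  rw [← Finset.mul_sum]
  by_cases hw : Wd D d y u
  · rw [h.row u d hw.2.2]
  · rw [I_of_not hw, zero_mul, zero_mul]

/-- equality in the count of the words -/
theorem Hyp.tr_eq (h : Hyp D w k) (y u v : V) : tr D k y u v = I D y u v * w v := by
  have h1 : ∑ y, ∑ u, ∑ v, w y * w u * tr D k y u v =
      ∑ y, ∑ u, ∑ v, w y * w u * (I D y u v * w v) := by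
    have e1 : ∀ y u, ∑ v, w y * w u * tr D k y u v = ∑ d, w y * w u * (I D d y u * w d) := by
      intro y u
      rw [← Finset.mul_sum, h.sum_tr, ← Finset.mul_sum]
      rfl
    simp only [e1]
    -- the left side is a sum over (d, y, u), the right side over (y, u, v)
    have e2 : ∑ y, ∑ u, ∑ d, w y * w u * (I D d y u * w d) =
        ∑ d, ∑ y, ∑ u, w y * w u * (I D d y u * w d) := by
      rw [Finset.sum_congr rfl fun y _ => Finset.sum_comm (s := Finset.univ) (t := Finset.univ)
        (f := fun u d => w y * w u * (I D d y u * w d))]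
      exact Finset.sum_comm
    rw [e2]
    refine Finset.sum_congr rfl fun y _ => Finset.sum_congr rfl fun u _ =>
      Finset.sum_congr rfl fun v _ => ?_
    ring
  have hle : ∀ y u v, w y * w u * tr D k y u v ≤ w y * w u * (I D y u v * w v) := fun y u v =>
    mul_le_mul_of_nonneg_left (h.tr_le y u v) (mul_nonneg (h.pos y).le (h.pos u).le)
  have h2 := (Finset.sum_eq_sum_iff_of_le fun y _ =>
    Finset.sum_le_sum fun u _ => Finset.sum_le_sum fun v _ => hle y u v).1 h1 y (Finset.mem_univ y)
  have h3 := (Finset.sum_eq_sum_iff_of_le fun u _ =>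
    Finset.sum_le_sum fun v _ => hle y u v).1 h2 u (Finset.mem_univ u)
  have h4 := (Finset.sum_eq_sum_iff_of_le fun v _ => hle y u v).1 h3 v (Finset.mem_univ v)
  exact mul_left_cancel₀ (mul_pos (h.pos y) (h.pos u)).ne' h4

/-- words can be rotated back -/
theorem Hyp.unrot (h : Hyp D w k) {d y u v : V} (hw : Wd D y u v) (hk : k u d v ≠ 0) :
    Wd D d y u := by
  by_contra hd
  have h1 := h.tr_eq y u v
  rw [I_of hw, one_mul] at h1
  have h2 : tr D k y u v < ∑ z, k u z v := by
    refine Finset.sum_lt_sum (fun z _ => mul_le_of_le_one_left (h.nonneg u z v) (I_le z y u))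
      ⟨d, Finset.mem_univ d, ?_⟩
    rw [I_of_not hd, zero_mul]
    exact lt_of_le_of_ne (h.nonneg u d v) (Ne.symm hk)
  have h3 := h.col u v
  linarith

theorem Hyp.c_eq (h : Hyp D w k) (a b : V) : c1 D w a b = c2 D w a b := by
  rw [← h.sum_tr a b]
  exact Finset.sum_congr rfl fun v _ => (h.tr_eq a b v).symm

/-- the number of words with the ends `u`, `d` -/
theorem Hyp.q_eq (h : Hyp D w k) {u d v : V} (hk : k u d v ≠ 0) : q D w u d = c2 D w u v := by
  refine Finset.sum_congr rfl fun y _ => ?_
  by_cases hw : Wd D d y u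
  · rw [I_of hw, I_of (h.rot hw hk)]
  · rw [I_of_not hw, I_of_not fun hw' => hw (h.unrot hw' hk)]

theorem Hyp.q_le (h : Hyp D w k) {d y u v : V} (hw : Wd D d y u) (hk : k u d v ≠ 0) :
    q D w v y ≤ c1 D w d y := by
  obtain ⟨-, huv, hvd⟩ := h.supp u d v hk
  have hdy := hw.1
  refine Finset.sum_le_sum fun x _ => ?_
  by_cases hx : Wd D y x v
  · obtain ⟨hyx, hxv, -⟩ := hx
    have hd : Wd D d y x := by
      refine ⟨hdy, hyx, ?_, ?_, ?_, v, hxv.1, hvd⟩
      · rintro rfl
        exact D.asymm _ _ hyx.1 hdy.1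
      · intro hxd
        exact hdy.2 x ⟨hyx.1, hxd⟩
      · intro hdx
        exact hxv.2 d ⟨hvd, hdx⟩
    rw [I_of ⟨hyx, hxv, (h.rot hw hk).2.2⟩, I_of hd]
  · rw [I_of_not hx, zero_mul]
    exact mul_nonneg (I_nonneg _ _ _) (h.pos x).le

theorem Hyp.c1_nonneg (h : Hyp D w k) (a b : V) : 0 ≤ c1 D w a b :=
  Finset.sum_nonneg fun x _ => mul_nonneg (I_nonneg _ _ _) (h.pos x).le

theorem Hyp.c1_pos (h : Hyp D w k) {a b c : V} (hw : Wd D a b c) : 0 < c1 D w a b := by
  refine Finset.sum_pos' (fun x _ => mul_nonneg (I_nonneg _ _ _) (h.pos x).le)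
    ⟨c, Finset.mem_univ c, ?_⟩
  rw [I_of hw, one_mul]
  exact h.pos c

theorem Hyp.q_nonneg (h : Hyp D w k) (a b : V) : 0 ≤ q D w a b :=
  Finset.sum_nonneg fun x _ => mul_nonneg (I_nonneg _ _ _) (h.pos x).le

theorem Hyp.q_pos (h : Hyp D w k) {a b c : V} (hw : Wd D a b c) : 0 < q D w c a := by
  refine Finset.sum_pos' (fun x _ => mul_nonneg (I_nonneg _ _ _) (h.pos x).le)
    ⟨b, Finset.mem_univ b, ?_⟩
  rw [I_of hw, one_mul]
  exact h.pos b

/-- the arcs on words are saturated -/
theorem Hyp.sat (h : Hyp D w k) {x v v' : V} (hw : Wd D x v v') : ∑ y, k v y v' = w v' := by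
  refine le_antisymm (h.col v v') ?_
  have h1 := h.tr_eq x v v'
  rw [I_of hw, one_mul] at h1
  rw [← h1]
  exact Finset.sum_le_sum fun z _ => mul_le_of_le_one_left (h.nonneg v z v') (I_le z x v)

omit k w D in
theorem swap3 (f : V → V → V → ℝ) : ∑ d, ∑ u, ∑ v, f d u v = ∑ v, ∑ u, ∑ d, f d u v := by
  rw [Finset.sum_comm]
  rw [Finset.sum_congr rfl fun u _ => Finset.sum_comm (s := Finset.univ) (t := Finset.univ)
    (f := fun d v => f d u v)]
  exact Finset.sum_comm

theorem Hyp.total_zero (h : Hyp D w k) :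
    ∑ d, ∑ y, ∑ u, ∑ v, w y * w u * (I D d y u * k u d v) * (c1 D w d y - q D w v y) = 0 := by
  have e1 : ∑ d, ∑ y, ∑ u, ∑ v, w y * w u * (I D d y u * k u d v) * c1 D w d y =
      ∑ d, ∑ y, w d * w y * c1 D w d y ^ 2 := by
    refine Finset.sum_congr rfl fun d _ => Finset.sum_congr rfl fun y _ => ?_
    have : ∀ u, ∑ v, w y * w u * (I D d y u * k u d v) * c1 D w d y =
        w d * w y * c1 D w d y * (I D d y u * w u) := by
      intro u
      by_cases hw : Wd D d y u
      · have := h.row u d hw.2.2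
        have e : ∑ v, w y * w u * (I D d y u * k u d v) * c1 D w d y =
            w y * w u * (I D d y u) * c1 D w d y * ∑ v, k u d v := by
          rw [Finset.mul_sum]
          exact Finset.sum_congr rfl fun v _ => by ring
        rw [e, this]
        ring
      · rw [I_of_not hw]
        simp
    rw [Finset.sum_congr rfl fun u _ => this u, ← Finset.mul_sum]
    change w d * w y * c1 D w d y * c1 D w d y = _
    ring
  have e2 : ∑ d, ∑ y, ∑ u, ∑ v, w y * w u * (I D d y u * k u d v) * q D w v y =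
      ∑ y, ∑ v, w y * w v * q D w v y ^ 2 := by
    rw [Finset.sum_comm]
    refine Finset.sum_congr rfl fun y _ => ?_
    have : ∀ v, ∑ u, ∑ d, w y * w u * (I D d y u * k u d v) * q D w v y =
        w y * w v * q D w v y ^ 2 := by
      intro v
      have e : ∀ u, ∑ d, w y * w u * (I D d y u * k u d v) * q D w v y =
          w y * w v * q D w v y * (I D y u v * w u) := by
        intro u
        have e' : ∑ d, w y * w u * (I D d y u * k u d v) * q D w v y =
            w y * w u * q D w v y * tr D k y u v := by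
          unfold tr
          rw [Finset.mul_sum]
          exact Finset.sum_congr rfl fun d _ => by ring
        rw [e', h.tr_eq]
        ring
      rw [Finset.sum_congr rfl fun u _ => e u, ← Finset.mul_sum]
      change w y * w v * q D w v y * q D w v y = _
      ring
    rw [Finset.sum_congr rfl fun v _ => (this v).symm]
    exact swap3 fun d u v => w y * w u * (I D d y u * k u d v) * q D w v y
  have e3 : ∑ y, ∑ v, w y * w v * q D w v y ^ 2 = ∑ v, ∑ v', w v * w v' * c2 D w v v' ^ 2 := by
    rw [Finset.sum_comm]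
    refine Finset.sum_congr rfl fun v _ => ?_
    have e : ∀ y, w y * w v * q D w v y ^ 2 = ∑ v', w v * k v y v' * c2 D w v v' ^ 2 := by
      intro y
      by_cases hq : Q D v y
      · rw [← h.row v y hq, Finset.sum_mul, Finset.sum_mul]
        refine Finset.sum_congr rfl fun v' _ => ?_
        by_cases hk : k v y v' = 0
        · rw [hk]; ring
        · rw [h.q_eq hk]; ring
      · have hk : ∀ v', k v y v' = 0 := by
          intro v'
          by_contra hne
          exact hq (h.supp v y v' hne).1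
        have hq0 : q D w v y = 0 := by
          refine Finset.sum_eq_zero fun x _ => ?_
          rw [I_of_not fun hw => hq hw.2.2, zero_mul]
        rw [hq0]
        simp [hk]
    rw [Finset.sum_congr rfl fun y _ => e y, Finset.sum_comm]
    refine Finset.sum_congr rfl fun v' _ => ?_
    by_cases hc : ∃ x, Wd D x v v'
    · obtain ⟨x, hx⟩ := hc
      rw [← h.sat hx, Finset.mul_sum, Finset.sum_mul]
    · have hc0 : c2 D w v v' = 0 := by
        refine Finset.sum_eq_zero fun x _ => ?_
        rw [I_of_not fun hw => hc ⟨x, hw⟩, zero_mul]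
      rw [hc0]
      simp
  have e4 : ∑ d, ∑ y, w d * w y * c1 D w d y ^ 2 = ∑ v, ∑ v', w v * w v' * c2 D w v v' ^ 2 :=
    Finset.sum_congr rfl fun a _ => Finset.sum_congr rfl fun b _ => by rw [h.c_eq]
  simp only [mul_sub, Finset.sum_sub_distrib]
  rw [e1, e2, e3, e4, sub_self]

end Vale.Agent.P038.H38
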